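import Vale.Agent.P161.Defs
import Mathlib.Algebra.Order.Group.Action.End
import Mathlib.GroupTheory.Index
import Mathlib.GroupTheory.GroupAction.Quotient

/-!
Factors of IID relative to a group of automorphisms.
-/

open MeasureTheory

namespace Vale.Agent.P161

/-- `ν` is a `Γ`-factor of IID: the image of i.i.d. uniform labels on `[0,1]` under a measurable map
which commutes almost surely with each fixed element of the group `Γ` of automorphisms of `G`. -/
def IsGroupFactor {V : Type*} (G : SimpleGraph V) (Γ : Subgroup (G ≃g G))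
    (ν : Measure (V → ℤˣ)) : Prop :=
  ∃ Φ : (V → unitInterval) → (V → ℤˣ), Measurable Φ ∧
    (∀ g ∈ Γ, ∀ᵐ x ∂(Measure.infinitePi fun _ : V => (volume : Measure unitInterval)),
      Φ (fun v => x (g.symm v)) = fun v => Φ x (g.symm v)) ∧
    Measure.map Φ (Measure.infinitePi fun _ : V => (volume : Measure unitInterval)) = ν

/-- `Γ` has finitely many orbits of vertices. -/
def IsCofinite {V : Type*} {G : SimpleGraph V} (Γ : Subgroup (G ≃g G)) : Prop :=
  ∃ O : Set V, O.Finite ∧ ∀ v, ∃ g ∈ Γ, g v ∈ O

/-- The orbit `Γ_u v` of the vertex `v` under the stabiliser of `u` in `Γ`. -/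
def stabOrbit {V : Type*} {G : SimpleGraph V} (Γ : Subgroup (G ≃g G)) (u v : V) : Set V :=
  {w | ∃ g ∈ Γ, g u = u ∧ g v = w}

/-- `Γ` is unimodular: `|Γ_u v| = |Γ_v u|` for all `u`, `v` in the same `Γ`-orbit. -/
def IsUnimodular {V : Type*} {G : SimpleGraph V} (Γ : Subgroup (G ≃g G)) : Prop :=
  ∀ u v : V, (∃ g ∈ Γ, g u = v) → (stabOrbit Γ u v).ncard = (stabOrbit Γ v u).ncard

/-- `Γ` fixes an end of the tree `G`: there is a `Γ`-equivariant choice of a neighbour `p v` of each
vertex `v` such that of the two ends of every edge exactly one is chosen by the other one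
(`p v` is the neighbour of `v` in the direction of the end). -/
def FixesEnd {V : Type*} {G : SimpleGraph V} (Γ : Subgroup (G ≃g G)) : Prop :=
  ∃ p : V → V, (∀ v, G.Adj v (p v)) ∧ (∀ u v, G.Adj u v → (p u = v ↔ p v ≠ u)) ∧
    ∀ g ∈ Γ, ∀ v, p (g v) = g (p v)

end Vale.Agent.P161
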