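import Vale.Agent.P161.H391.Anti
import Vale.Agent.P161.H431.Defs

/-!
If a group of automorphisms of a tree fixes an end, then the free Ising measure is a factor of IID
relative to this group for every parameter in `(-1, 1)`.
-/

open MeasureTheory Filter Topology

namespace Vale.Agent.P161.H431

open Vale.Agent.P161

/-! ### reading the labels -/

/-- the label asks to copy the parent -/
def cp (q : ℝ) (u : unitInterval) : Prop := |2 * (u : ℝ) - 1| ≤ q

open Classical in
/-- the fresh sign given by a label -/
noncomputable def sv (u : unitInterval) : ℤˣ := if 1 < 2 * (u : ℝ) then 1 else -1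

theorem cp_symm (q : ℝ) (u : unitInterval) : cp q (unitInterval.symm u) ↔ cp q u := by
  unfold cp
  rw [unitInterval.coe_symm_eq]
  rw [show 2 * (1 - (u : ℝ)) - 1 = -(2 * (u : ℝ) - 1) by ring, abs_neg]

theorem sv_symm {q : ℝ} (hq : 0 ≤ q) {u : unitInterval} (h : ¬ cp q u) :
    sv (unitInterval.symm u) = - sv u := by
  unfold cp at h
  unfold sv
  rw [unitInterval.coe_symm_eq]
  by_cases h1 : 1 < 2 * (u : ℝ)
  · rw [if_pos h1, if_neg (by linarith)]
  · rw [if_neg h1, if_pos, neg_neg]
    by_contra h2
    apply h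
    have : 2 * (u : ℝ) - 1 = 0 := by linarith
    rw [this, abs_zero]
    exact hq

/-- the labels at a vertex with spin `a` whose parent has spin `b` -/
def LA (q : ℝ) (sg a b : ℤˣ) : Set unitInterval :=
  {u | (cp q u ∧ a = sg * b) ∨ (¬ cp q u ∧ sv u = a)}

theorem volume_cp {q : ℝ} (hq : 0 ≤ q) (hq1 : q < 1) :
    volume {u : unitInterval | cp q u} = ENNReal.ofReal q := by
  have e : {u : unitInterval | cp q u} = Set.Icc (⟨(1 - q) / 2, by constructor <;> linarith⟩ :
      unitInterval) ⟨(1 + q) / 2, by constructor <;> linarith⟩ := by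
    ext u
    simp only [cp, Set.mem_ofPred_eq, Set.mem_Icc, abs_le, ← Subtype.coe_le_coe]
    constructor
    · rintro ⟨h1, h2⟩
      constructor <;> linarith
    · rintro ⟨h1, h2⟩
      constructor <;> linarith
  rw [e, unitInterval.volume_Icc]
  congr 1
  show (1 + q) / 2 - (1 - q) / 2 = q
  ring

theorem measurableSet_cp (q : ℝ) : MeasurableSet {u : unitInterval | cp q u} := by
  unfold cp
  exact measurableSet_le
    (((measurable_subtype_coe.const_mul 2).sub_const 1).abs) measurable_const

theorem measurable_sv : Measurable sv := by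
  unfold sv
  exact Measurable.ite (measurableSet_lt measurable_const (measurable_subtype_coe.const_mul 2))
    measurable_const measurable_const

theorem measurableSet_LA (q : ℝ) (sg a b : ℤˣ) : MeasurableSet (LA q sg a b) := by
  have := msc_units
  have e : LA q sg a b = ({u | cp q u} ∩ {_u | a = sg * b}) ∪
      ({u | cp q u}ᶜ ∩ sv ⁻¹' {a}) := by
    ext u
    simp [LA]
  rw [e]
  exact ((measurableSet_cp q).inter (MeasurableSet.const _)).union
    ((measurableSet_cp q).compl.inter (measurable_sv (measurableSet_singleton a)))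

theorem volume_LA {q : ℝ} (hq : 0 ≤ q) (hq1 : q < 1) (sg a b : ℤˣ) :
    volume (LA q sg a b) =
      ENNReal.ofReal ((1 + ((sg : ℤ) : ℝ) * q * (((a * b : ℤˣ) : ℤ) : ℝ)) / 2) := by
  set x0 : unitInterval := ⟨(1 - q) / 2, by constructor <;> linarith⟩ with hx0
  set x1 : unitInterval := ⟨(1 + q) / 2, by constructor <;> linarith⟩ with hx1
  have h10 : (1 : ℤˣ) ≠ -1 := by decide
  by_cases h : a = sg * b
  · have hv : ((sg : ℤ) : ℝ) * q * (((a * b : ℤˣ) : ℤ) : ℝ) = q := by
      rcases Int.units_eq_one_or sg with h1 | h1 <;> rcases Int.units_eq_one_or b with h2 | h2 <;>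
        rw [h, h1, h2] <;> simp
    rw [hv]
    rcases Int.units_eq_one_or a with ha | ha
    · have e : LA q sg a b = Set.Ici x0 := by
        ext u
        simp only [LA, cp, sv, Set.mem_ofPred_eq, Set.mem_Ici, abs_le, ← Subtype.coe_le_coe, ← h,
          and_true, hx0]
        rw [ha]
        constructor
        · rintro (⟨h1, h2⟩ | ⟨h1, h2⟩)
          · linarith
          · by_cases h3 : 1 < 2 * (u : ℝ)
            · linarith
            · rw [if_neg h3] at h2
              exact absurd h2.symm h10
        · intro h1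
          by_cases h2 : 2 * (u : ℝ) - 1 ≤ q
          · left
            constructor <;> linarith
          · right
            refine ⟨fun h3 => h2 h3.2, if_pos ?_⟩
            linarith
      rw [e, unitInterval.volume_Ici]
      congr 1
      show 1 - (1 - q) / 2 = (1 + q) / 2
      ring
    · have e : LA q sg a b = Set.Iic x1 := by
        ext u
        simp only [LA, cp, sv, Set.mem_ofPred_eq, Set.mem_Iic, abs_le, ← Subtype.coe_le_coe, ← h,
          and_true, hx1]
        rw [ha]
        constructor
        · rintro (⟨h1, h2⟩ | ⟨h1, h2⟩)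
          · linarith
          · by_cases h3 : 1 < 2 * (u : ℝ)
            · rw [if_pos h3] at h2
              exact absurd h2 h10
            · linarith
        · intro h1
          by_cases h2 : -q ≤ 2 * (u : ℝ) - 1
          · left
            constructor <;> linarith
          · right
            refine ⟨fun h3 => h2 h3.1, if_neg ?_⟩
            linarith
      rw [e, unitInterval.volume_Iic]
  · have hv : ((sg : ℤ) : ℝ) * q * (((a * b : ℤˣ) : ℤ) : ℝ) = -q := by
      rcases Int.units_eq_one_or sg with h1 | h1 <;> rcases Int.units_eq_one_or b with h2 | h2 <;>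
        rcases Int.units_eq_one_or a with h3 | h3 <;> rw [h1, h2, h3] at h ⊢ <;>
        first | (exfalso; exact h (by decide)) | simp
    rw [hv]
    rcases Int.units_eq_one_or a with ha | ha
    · have e : LA q sg a b = Set.Ioi x1 := by
        ext u
        simp only [LA, cp, sv, Set.mem_ofPred_eq, Set.mem_Ioi, abs_le, ← Subtype.coe_lt_coe, h,
          and_false, false_or, hx1]
        rw [ha]
        constructor
        · rintro ⟨h1, h2⟩
          by_cases h3 : 1 < 2 * (u : ℝ)
          · by_contra h4
            apply h1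
            constructor <;> linarith
          · rw [if_neg h3] at h2
            exact absurd h2.symm h10
        · intro h1
          refine ⟨fun h3 => ?_, if_pos ?_⟩
          · linarith [h3.2]
          · linarith
      rw [e, unitInterval.volume_Ioi]
      congr 1
      show 1 - (1 + q) / 2 = (1 + -q) / 2
      ring
    · have e : LA q sg a b = Set.Iio x0 := by
        ext u
        simp only [LA, cp, sv, Set.mem_ofPred_eq, Set.mem_Iio, abs_le, ← Subtype.coe_lt_coe, h,
          and_false, false_or, hx0]
        rw [ha]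
        constructor
        · rintro ⟨h1, h2⟩
          by_cases h3 : 1 < 2 * (u : ℝ)
          · rw [if_pos h3] at h2
            exact absurd h2 h10
          · by_contra h4
            apply h1
            constructor <;> linarith
        · intro h1
          refine ⟨fun h3 => ?_, if_neg ?_⟩
          · linarith [h3.1]
          · linarith
      rw [e, unitInterval.volume_Iio]
      congr 1

/-! ### the tree seen from the end -/

section Tree

variable {V : Type*} {G : SimpleGraph V} {p : V → V}

theorem pp_ne (hp1 : ∀ v, G.Adj v (p v)) (hp2 : ∀ u v, G.Adj u v → (p u = v ↔ p v ≠ u)) (v : V) :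
    p (p v) ≠ v := (hp2 v (p v) (hp1 v)).1 rfl

theorem dist_iter (hG : G.IsTree) (hp1 : ∀ v, G.Adj v (p v))
    (hp2 : ∀ u v, G.Adj u v → (p u = v ↔ p v ≠ u)) (v : V) (k : ℕ) :
    G.dist v (p^[k] v) = k := by
  have h : NBPath G k fun i => p^[i] v := by
    refine ⟨fun i _ => ?_, fun i _ => ?_⟩
    · show G.Adj (p^[i] v) (p^[i + 1] v)
      rw [Function.iterate_succ_apply']
      exact hp1 _
    · show p^[i] v ≠ p^[i + 2] v
      rw [Function.iterate_succ_apply', Function.iterate_succ_apply']
      exact (pp_ne hp1 hp2 _).symm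
  exact h.dist_eq hG k le_rfl

theorem iter_injective (hG : G.IsTree) (hp1 : ∀ v, G.Adj v (p v))
    (hp2 : ∀ u v, G.Adj u v → (p u = v ↔ p v ≠ u)) (v : V) :
    Function.Injective fun k : ℕ => p^[k] v := by
  intro a b h
  have h1 := dist_iter hG hp1 hp2 v a
  have h2 := dist_iter hG hp1 hp2 v b
  have h' : p^[a] v = p^[b] v := h
  rw [h'] at h1
  exact h1.symm.trans h2

/-- the top vertex of a finite connected set -/
theorem exists_top (hG : G.IsTree) (hp1 : ∀ v, G.Adj v (p v))
    (hp2 : ∀ u v, G.Adj u v → (p u = v ↔ p v ≠ u)) {D : Finset V}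
    (hD : (G.induce (D : Set V)).Connected) :
    ∃ t ∈ D, p t ∉ D ∧ ∀ v ∈ D, ∃ k, p^[k] v = t ∧ ∀ j ≤ k, p^[j] v ∈ D := by
  obtain ⟨⟨v0, hv0⟩⟩ := hD.nonempty
  have h1 : ∃ t ∈ D, p t ∉ D := by
    by_contra hcon
    push Not at hcon
    have h2 : ∀ k : ℕ, p^[k] v0 ∈ (D : Set V) := by
      intro k
      induction k with
      | zero => exact hv0
      | succ k ih => rw [Function.iterate_succ_apply']; exact hcon _ ih
    exact Set.infinite_of_injective_forall_mem (iter_injective hG hp1 hp2 v0) h2 D.finite_toSet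
  obtain ⟨t, ht, hpt⟩ := h1
  refine ⟨t, ht, hpt, fun v hv => ?_⟩
  let P : V → Prop := fun x => ∃ k, p^[k] x = t ∧ ∀ j ≤ k, p^[j] x ∈ D
  have step : ∀ x ∈ D, ∀ y ∈ D, G.Adj x y → P x → P y := by
    rintro x _ y hy hxy ⟨k, hk1, hk2⟩
    by_cases h : p y = x
    · refine ⟨k + 1, ?_, fun j hj => ?_⟩
      · rw [Function.iterate_succ_apply, h, hk1]
      · rcases j with _ | j
        · exact hy
        · rw [Function.iterate_succ_apply, h]
          exact hk2 j (by omega)
    · have hx : p x = y := (hp2 x y hxy).2 h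
      rcases k with _ | k
      · exfalso
        have hxt : x = t := hk1
        rw [← hxt, hx] at hpt
        exact hpt hy
      · refine ⟨k, ?_, fun j hj => ?_⟩
        · rw [← hk1, Function.iterate_succ_apply, hx]
        · have := hk2 (j + 1) (by omega)
          rwa [Function.iterate_succ_apply, hx] at this
  obtain ⟨w⟩ := hD.preconnected ⟨t, ht⟩ ⟨v, hv⟩
  have hwalk : ∀ a b : (D : Set V), (G.induce (D : Set V)).Walk a b → P a → P b := by
    intro a b w
    induction w with
    | nil => exact id
    | cons hadj _ ih => exact fun h => ih (step _ (Subtype.prop _) _ (Subtype.prop _) hadj h)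
  exact hwalk _ _ w ⟨0, rfl, fun j hj => by
    have : j = 0 := by omega
    subst this
    exact ht⟩

open Classical in
/-- the edges inside a connected set are the edges from its vertices, except the top, to their
parents -/
theorem prod_edges {D : Finset V} {t : V} (hp1 : ∀ v, G.Adj v (p v))
    (hp2 : ∀ u v, G.Adj u v → (p u = v ↔ p v ≠ u)) (hpt : p t ∉ D)
    (hD : ∀ v ∈ D, v ≠ t → p v ∈ D) {M : Type*} [CommMonoid M] (f : Sym2 V → M) :
    ∏ e ∈ D.sym2.filter (fun e => e ∈ G.edgeSet), f e = ∏ v ∈ D.erase t, f s(v, p v) := by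
  symm
  refine Finset.prod_bij (fun v _ => s(v, p v)) ?_ ?_ ?_ ?_
  · intro v hv
    rw [Finset.mem_erase] at hv
    rw [Finset.mem_filter, Finset.mk_mem_sym2_iff, SimpleGraph.mem_edgeSet]
    exact ⟨⟨hv.2, hD v hv.2 hv.1⟩, hp1 v⟩
  · intro a _ b _ hab
    rw [Sym2.eq_iff] at hab
    rcases hab with ⟨h, _⟩ | ⟨h1, h2⟩
    · exact h
    · exfalso
      exact pp_ne hp1 hp2 b (by rw [← h1]; exact h2)
  · intro e he
    rw [Finset.mem_filter] at he
    induction e using Sym2.ind with
    | _ a b =>
      rw [Finset.mk_mem_sym2_iff, SimpleGraph.mem_edgeSet] at he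
      obtain ⟨⟨ha, hb⟩, hab⟩ := he
      by_cases h : p a = b
      · refine ⟨a, ?_, by rw [h]⟩
        rw [Finset.mem_erase]
        refine ⟨fun h' => ?_, ha⟩
        rw [← h', h] at hpt
        exact hpt hb
      · have h2 : p b = a := by
          by_contra h3
          exact h ((hp2 a b hab).2 h3)
        refine ⟨b, ?_, by rw [h2]; exact Sym2.eq_swap⟩
        rw [Finset.mem_erase]
        refine ⟨fun h' => ?_, hb⟩
        rw [← h', h2] at hpt
        exact hpt ha
  · intro v _
    rfl

end Tree

/-! ### the factor map -/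

section Map

variable {V : Type*} {G : SimpleGraph V} {p : V → V} {q : ℝ} {sg : ℤˣ}

/-- `n` is good for `v`: the `n`-th ancestor has a fresh sign, or no ancestor has one -/
def QQ (p : V → V) (q : ℝ) (v : V) (n : ℕ) (U : V → unitInterval) : Prop :=
  ¬ cp q (U (p^[n] v)) ∨ ∀ k, cp q (U (p^[k] v))

theorem exists_QQ (p : V → V) (q : ℝ) (v : V) (U : V → unitInterval) : ∃ n, QQ p q v n U := by
  by_cases h : ∀ k, cp q (U (p^[k] v))
  · exact ⟨0, Or.inr h⟩
  · push Not at h
    obtain ⟨n, hn⟩ := h
    exact ⟨n, Or.inl hn⟩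

open Classical in
/-- the spin if the first fresh sign is at the `n`-th ancestor -/
noncomputable def val (p : V → V) (q : ℝ) (sg : ℤˣ) (v : V) (n : ℕ) (U : V → unitInterval) : ℤˣ :=
  if cp q (U (p^[n] v)) then 1 else sg ^ n * sv (U (p^[n] v))

open Classical in
/-- the factor map -/
noncomputable def Ph (p : V → V) (q : ℝ) (sg : ℤˣ) (U : V → unitInterval) (v : V) : ℤˣ :=
  val p q sg v (Nat.find (exists_QQ p q v U)) U

theorem measurable_Ph (p : V → V) (q : ℝ) (sg : ℤˣ) : Measurable (Ph p q sg) := by
  classical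
  have := msc_units
  refine measurable_pi_lambda _ fun v => ?_
  have hcp : ∀ k, MeasurableSet {U : V → unitInterval | cp q (U (p^[k] v))} := fun k => by
    have h : Measurable fun U : V → unitInterval => U (p^[k] v) := measurable_pi_apply _
    exact h (measurableSet_cp q)
  refine Measurable.find (f := fun n U => val p q sg v n U) (p := fun n U => QQ p q v n U)
    (fun n => ?_) (fun n => ?_) (fun U => exists_QQ p q v U)
  · unfold val
    exact Measurable.ite (hcp n) measurable_const
      ((measurable_of_countable (fun a : ℤˣ => sg ^ n * a)).comp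
        (measurable_sv.comp (measurable_pi_apply _)))
  · have e : {U : V → unitInterval | QQ p q v n U} =
        {U | cp q (U (p^[n] v))}ᶜ ∪ ⋂ k, {U | cp q (U (p^[k] v))} := by
      ext U
      simp [QQ]
    rw [e]
    exact (hcp n).compl.union (MeasurableSet.iInter hcp)

/-- some ancestor of `v` (or `v` itself) has a fresh sign -/
def GoodV (p : V → V) (q : ℝ) (v : V) (U : V → unitInterval) : Prop := ∃ n, ¬ cp q (U (p^[n] v))

open Classical in
theorem Ph_of_good {v : V} {U : V → unitInterval} (h : GoodV p q v U) :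
    Ph p q sg U v = sg ^ (Nat.find h) * sv (U (p^[Nat.find h] v)) := by
  have e : Nat.find (exists_QQ p q v U) = Nat.find h := by
    refine (Nat.find_eq_iff _).2 ⟨Or.inl (Nat.find_spec h), fun m hm => ?_⟩
    have h1 := Nat.find_min h hm
    rintro (h2 | h2)
    · exact h1 h2
    · obtain ⟨n, hn⟩ := h
      exact hn (h2 n)
  unfold Ph val
  rw [e, if_neg (Nat.find_spec h)]

theorem Ph_fresh {v : V} {U : V → unitInterval} (h : ¬ cp q (U v)) :
    Ph p q sg U v = sv (U v) := by
  classical
  have hg : GoodV p q v U := ⟨0, h⟩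
  have e : Nat.find hg = 0 := (Nat.find_eq_zero hg).2 h
  rw [Ph_of_good hg, e]
  simp

theorem Ph_copy {v : V} {U : V → unitInterval} (h : cp q (U v)) (hg : GoodV p q (p v) U) :
    Ph p q sg U v = sg * Ph p q sg U (p v) := by
  classical
  have hg' : GoodV p q v U := by
    obtain ⟨n, hn⟩ := hg
    exact ⟨n + 1, by rwa [Function.iterate_succ_apply]⟩
  have e : Nat.find hg' = Nat.find hg + 1 := by
    refine (Nat.find_eq_iff _).2 ⟨?_, fun m hm => ?_⟩
    · rw [Function.iterate_succ_apply]
      exact Nat.find_spec hg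
    · rcases m with _ | m
      · exact fun h' => h' h
      · rw [Function.iterate_succ_apply]
        exact Nat.find_min hg (by omega)
  rw [Ph_of_good hg, Ph_of_good hg', e, pow_succ', Function.iterate_succ_apply, mul_assoc]

theorem Ph_mem_LA {v : V} {U : V → unitInterval} (hg : GoodV p q (p v) U) :
    U v ∈ LA q sg (Ph p q sg U v) (Ph p q sg U (p v)) := by
  by_cases h : cp q (U v)
  · exact Or.inl ⟨h, Ph_copy h hg⟩
  · exact Or.inr ⟨h, (Ph_fresh h).symm⟩

theorem Ph_eq_of_LA {v : V} {U : V → unitInterval} (hg : GoodV p q (p v) U) {a : ℤˣ}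
    (h : U v ∈ LA q sg a (Ph p q sg U (p v))) : Ph p q sg U v = a := by
  rcases h with ⟨h1, h2⟩ | ⟨h1, h2⟩
  · rw [Ph_copy h1 hg, h2]
  · rw [Ph_fresh h1, h2]

theorem Ph_congr {v : V} {U U' : V → unitInterval} (h : ∀ k, U (p^[k] v) = U' (p^[k] v)) :
    Ph p q sg U v = Ph p q sg U' v := by
  classical
  have hQ : ∀ n, QQ p q v n U ↔ QQ p q v n U' := by
    intro n
    simp only [QQ, h]
  have e : Nat.find (exists_QQ p q v U) = Nat.find (exists_QQ p q v U') := by
    refine (Nat.find_eq_iff _).2 ⟨(hQ _).2 (Nat.find_spec (exists_QQ p q v U')), fun m hm => ?_⟩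
    rw [hQ]
    exact Nat.find_min (exists_QQ p q v U') hm
  unfold Ph val
  rw [e, h]

theorem Ph_shift {U : V → unitInterval} {g : G ≃g G} (hg : ∀ v, p (g v) = g (p v)) (v : V) :
    Ph p q sg (fun x => U (g.symm x)) v = Ph p q sg U (g.symm v) := by
  classical
  have hs : ∀ v, g.symm (p v) = p (g.symm v) := by
    intro v
    apply g.injective
    rw [← hg]
    simp
  have hit : ∀ k, g.symm (p^[k] v) = p^[k] (g.symm v) := by
    intro k
    induction k with
    | zero => rfl
    | succ k ih => rw [Function.iterate_succ_apply', Function.iterate_succ_apply', hs, ih]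
  have hQ : ∀ n, QQ p q v n (fun x => U (g.symm x)) ↔ QQ p q (g.symm v) n U := by
    intro n
    simp only [QQ, hit]
  have e : Nat.find (exists_QQ p q v (fun x => U (g.symm x))) =
      Nat.find (exists_QQ p q (g.symm v) U) := by
    refine (Nat.find_eq_iff _).2 ⟨(hQ _).2 (Nat.find_spec (exists_QQ p q (g.symm v) U)),
      fun m hm => ?_⟩
    rw [hQ]
    exact Nat.find_min (exists_QQ p q (g.symm v) U) hm
  unfold Ph val
  rw [e]
  simp only [hit]

/-! ### the law -/

theorem good_ae (hG : G.IsTree) (hp1 : ∀ v, G.Adj v (p v))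
    (hp2 : ∀ u v, G.Adj u v → (p u = v ↔ p v ≠ u)) (hq : 0 ≤ q) (hq1 : q < 1) (v : V) :
    ∀ᵐ U ∂(lab V), GoodV p q v U := by
  classical
  have hcp : ∀ k, MeasurableSet {U : V → unitInterval | cp q (U (p^[k] v))} := fun k => by
    have h : Measurable fun U : V → unitInterval => U (p^[k] v) := measurable_pi_apply _
    exact h (measurableSet_cp q)
  have hle : ∀ n : ℕ, lab V {U | ¬ GoodV p q v U} ≤ ENNReal.ofReal (q ^ n) := by
    intro n
    set S : Finset V := (Finset.range n).image fun k => p^[k] v with hS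
    have hcard : S.card = n := by
      rw [hS, Finset.card_image_of_injective _ (iter_injective hG hp1 hp2 v), Finset.card_range]
    have hsub : {U : V → unitInterval | ¬ GoodV p q v U} ⊆
        (S : Set V).pi fun _ => {u | cp q u} := by
      intro U hU x hx
      rw [hS, Finset.mem_coe, Finset.mem_image] at hx
      obtain ⟨k, _, rfl⟩ := hx
      by_contra h
      exact hU ⟨k, h⟩
    refine (measure_mono hsub).trans (le_of_eq ?_)
    rw [Measure.infinitePi_pi _ (fun _ _ => measurableSet_cp q), Finset.prod_const, hcard,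
      volume_cp hq hq1, ENNReal.ofReal_pow hq]
  have hlim : Tendsto (fun n : ℕ => ENNReal.ofReal (q ^ n)) atTop (𝓝 0) := by
    have h1 := tendsto_pow_atTop_nhds_zero_of_lt_one hq hq1
    have h2 := ENNReal.tendsto_ofReal h1
    simpa using h2
  have h0 : lab V {U | ¬ GoodV p q v U} ≤ 0 := ge_of_tendsto' hlim hle
  exact le_antisymm h0 bot_le

theorem good_of_iter {v t : V} {k : ℕ} (h : p^[k] v = t) {U : V → unitInterval}
    (hg : GoodV p q t U) : GoodV p q v U := by
  obtain ⟨n, hn⟩ := hg
  refine ⟨n + k, ?_⟩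
  rw [Function.iterate_add_apply, h]
  exact hn

theorem measurable_Ph_apply (p : V → V) (q : ℝ) (sg : ℤˣ) (v : V) :
    Measurable fun U : V → unitInterval => Ph p q sg U v :=
  (measurable_pi_apply v).comp (measurable_Ph p q sg)

theorem half (hG : G.IsTree) (hp1 : ∀ v, G.Adj v (p v))
    (hp2 : ∀ u v, G.Adj u v → (p u = v ↔ p v ≠ u)) (hq : 0 ≤ q) (hq1 : q < 1) (sg : ℤˣ) (v : V)
    (a : ℤˣ) : lab V {U | Ph p q sg U v = a} = ENNReal.ofReal (1 / 2) := by
  classical
  have := msc_units
  have hm : ∀ a : ℤˣ, MeasurableSet {U : V → unitInterval | Ph p q sg U v = a} := fun a =>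
    measurable_Ph_apply p q sg v (measurableSet_singleton a)
  -- reflection
  let R : (V → unitInterval) → (V → unitInterval) := fun U x => unitInterval.symm (U x)
  have hR : MeasurePreserving R (lab V) (lab V) := by
    refine ⟨measurable_pi_lambda _ fun x =>
      unitInterval.measurable_symm.comp (measurable_pi_apply x), ?_⟩
    have h := Measure.infinitePi_map_pi
      (μ := fun _ : V => (volume : Measure unitInterval)) (f := fun _ => unitInterval.symm)
      (fun _ => unitInterval.measurable_symm)
    refine h.trans ?_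
    congr 1
    funext i
    exact unitInterval.measurePreserving_symm.map_eq
  have hflip : ∀ U, GoodV p q v U → Ph p q sg (R U) v = - Ph p q sg U v := by
    intro U hg
    have hc : ∀ x, cp q (R U x) ↔ cp q (U x) := fun x => cp_symm q (U x)
    have hg' : GoodV p q v (R U) := by
      obtain ⟨n, hn⟩ := hg
      exact ⟨n, fun h => hn ((hc _).1 h)⟩
    have e : Nat.find hg' = Nat.find hg := by
      refine (Nat.find_eq_iff _).2 ⟨fun h => Nat.find_spec hg ((hc _).1 h), fun m hm h' => ?_⟩
      exact Nat.find_min hg hm fun h => h' ((hc _).2 h)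
    rw [Ph_of_good hg, Ph_of_good hg', e]
    show sg ^ _ * sv (unitInterval.symm (U _)) = _
    rw [sv_symm hq (Nat.find_spec hg), mul_neg]
  have heq : lab V {U | Ph p q sg U v = a} = lab V {U | Ph p q sg U v = -a} := by
    rw [← hR.measure_preimage (hm (-a)).nullMeasurableSet]
    refine measure_congr ?_
    filter_upwards [good_ae hG hp1 hp2 hq hq1 v] with U hg
    refine propext ?_
    show Ph p q sg U v = a ↔ Ph p q sg (R U) v = -a
    rw [hflip U hg, neg_inj]
  have hsum : lab V {U | Ph p q sg U v = a} + lab V {U | Ph p q sg U v = -a} = 1 := by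
    rw [← measure_union _ (hm (-a))]
    · have : {U : V → unitInterval | Ph p q sg U v = a} ∪ {U | Ph p q sg U v = -a} = Set.univ := by
        ext U
        simp only [Set.mem_union, Set.mem_ofPred_eq, Set.mem_univ, iff_true]
        rcases Int.units_eq_one_or (Ph p q sg U v) with h | h <;>
          rcases Int.units_eq_one_or a with h' | h' <;> rw [h, h'] <;> simp
      rw [this, measure_univ]
    · rw [Set.disjoint_left]
      intro U h1 h2
      have h1' : Ph p q sg U v = a := h1
      have h2' : Ph p q sg U v = -a := h2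
      rw [h1'] at h2'
      rcases Int.units_eq_one_or a with h | h <;> rw [h] at h2' <;> exact absurd h2' (by decide)
  rw [← heq, ← two_mul] at hsum
  have h2 : ENNReal.ofReal (1 / 2) = 2⁻¹ := by
    rw [one_div, ENNReal.ofReal_inv_of_pos (by norm_num)]
    simp
  rw [h2]
  exact (ENNReal.eq_inv_of_mul_eq_one_left (by rwa [mul_comm] at hsum))

theorem isFreeIsing_Ph (hG : G.IsTree) (hp1 : ∀ v, G.Adj v (p v))
    (hp2 : ∀ u v, G.Adj u v → (p u = v ↔ p v ≠ u)) (hq : 0 ≤ q) (hq1 : q < 1) (sg : ℤˣ) :
    IsFreeIsing G (((sg : ℤ) : ℝ) * q) ((lab V).map (Ph p q sg)) := by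
  classical
  have := msc_units
  refine ⟨Measure.isProbabilityMeasure_map (measurable_Ph p q sg).aemeasurable, fun D hD η => ?_⟩
  have hmeas : MeasurableSet {σ : V → ℤˣ | ∀ v ∈ D, σ v = η v} := by
    have : {σ : V → ℤˣ | ∀ v ∈ D, σ v = η v} = ⋂ v ∈ D, (fun σ : V → ℤˣ => σ v) ⁻¹' {η v} := by
      ext σ; simp
    rw [this]
    exact Finset.measurableSet_biInter _ fun v _ =>
      measurable_pi_apply v (measurableSet_singleton _)
  rw [Measure.map_apply (measurable_Ph p q sg) hmeas]
  obtain ⟨t, ht, hpt, htop⟩ := exists_top hG hp1 hp2 hD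
  have hpar : ∀ v ∈ D, v ≠ t → p v ∈ D := by
    intro v hv hvt
    obtain ⟨k, hk, hk'⟩ := htop v hv
    rcases k with _ | k
    · exact absurd hk hvt
    · exact hk' 1 (by omega)
  have hanc : ∀ k, p^[k] t ∉ D.erase t := by
    intro k hk
    rw [Finset.mem_erase] at hk
    obtain ⟨m, hm, _⟩ := htop _ hk.2
    have h1 : p^[m + k] t = p^[0] t := by
      rw [Function.iterate_add_apply]
      exact hm
    have h2 : m + k = 0 := iter_injective hG hp1 hp2 t h1
    have h3 : k = 0 := by omega
    subst h3
    exact hk.1 rfl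
  -- the event
  set A : V → Set unitInterval := fun v => LA q sg (η v) (η (p v)) with hA
  have hcyl : MeasurableSet ((D.erase t : Set V).pi A) :=
    MeasurableSet.pi (D.erase t).countable_toSet fun v _ => measurableSet_LA _ _ _ _
  have htm : MeasurableSet {U : V → unitInterval | Ph p q sg U t = η t} :=
    measurable_Ph_apply p q sg t (measurableSet_singleton _)
  have hev : lab V (Ph p q sg ⁻¹' {σ : V → ℤˣ | ∀ v ∈ D, σ v = η v}) =
      lab V ({U | Ph p q sg U t = η t} ∩ (D.erase t : Set V).pi A) := by
    refine measure_congr ?_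
    filter_upwards [good_ae hG hp1 hp2 hq hq1 t] with U hg
    refine propext ?_
    have hgv : ∀ v ∈ D, GoodV p q v U := by
      intro v hv
      obtain ⟨k, hk, _⟩ := htop v hv
      exact good_of_iter hk hg
    constructor
    · intro h
      have h' : ∀ v ∈ D, Ph p q sg U v = η v := h
      refine ⟨h' t ht, fun v hv => ?_⟩
      rw [Finset.mem_coe, Finset.mem_erase] at hv
      have h1 := Ph_mem_LA (p := p) (q := q) (sg := sg) (v := v) (hgv _ (hpar v hv.2 hv.1))
      rw [h' v hv.2, h' _ (hpar v hv.2 hv.1)] at h1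
      exact h1
    · rintro ⟨h1, h2⟩
      have h1' : Ph p q sg U t = η t := h1
      have key : ∀ k v, v ∈ D → p^[k] v = t → Ph p q sg U v = η v := by
        intro k
        induction k with
        | zero =>
          intro v _ hvt
          have : v = t := hvt
          rw [this]
          exact h1'
        | succ k ih =>
          intro v hv hvt
          by_cases hvt' : v = t
          · rw [hvt']
            exact h1'
          · have hpv := hpar v hv hvt'
            have h3 := ih (p v) hpv (by rwa [Function.iterate_succ_apply] at hvt)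
            refine Ph_eq_of_LA (hgv _ hpv) ?_
            rw [h3]
            exact h2 v (by rw [Finset.mem_coe, Finset.mem_erase]; exact ⟨hvt', hv⟩)
      intro v hv
      obtain ⟨k, hk, _⟩ := htop v hv
      exact key k v hv hk
  rw [hev]
  -- independence
  have hmp := measurePreserving_mixc (ι := V) (volume : Measure unitInterval) (D.erase t : Set V)
  rw [← hmp.measure_preimage (htm.inter hcyl).nullMeasurableSet]
  have hpre : (fun x : (V → unitInterval) × (V → unitInterval) =>
      mixc (D.erase t : Set V) x.1 x.2) ⁻¹'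
      ({U | Ph p q sg U t = η t} ∩ (D.erase t : Set V).pi A) =
      ((D.erase t : Set V).pi A) ×ˢ {U | Ph p q sg U t = η t} := by
    ext ⟨U, U'⟩
    have e1 : Ph p q sg (mixc (D.erase t : Set V) U U') t = Ph p q sg U' t :=
      Ph_congr fun k => mixc_of_notMem (hanc k)
    simp only [Set.mem_preimage, Set.mem_inter_iff, Set.mem_prod, Set.mem_ofPred_eq]
    rw [e1, and_comm]
    refine and_congr ?_ Iff.rfl
    constructor
    · intro h v hv
      have := h v hv
      rwa [mixc_of_mem hv] at this
    · intro h v hv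
      rw [mixc_of_mem hv]
      exact h v hv
  rw [hpre, Measure.prod_prod, half hG hp1 hp2 hq hq1 sg t (η t),
    Measure.infinitePi_pi _ (fun v _ => measurableSet_LA _ _ _ _), mul_comm,
    ENNReal.ofReal_mul (by norm_num)]
  congr 1
  rw [prod_edges hp1 hp2 hpt hpar, ENNReal.ofReal_prod_of_nonneg]
  · refine Finset.prod_congr rfl fun v _ => ?_
    rw [volume_LA hq hq1]
    rfl
  · intro v _
    have h1 : |((sg : ℤ) : ℝ) * q * ((((s(v, p v)).map η).mul : ℤ) : ℝ)| ≤ 1 := by
      rw [abs_mul, abs_mul]
      have e1 : |((sg : ℤ) : ℝ)| = 1 := by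
        rcases Int.units_eq_one_or sg with h | h <;> rw [h] <;> simp
      have e2 : |((((s(v, p v)).map η).mul : ℤ) : ℝ)| = 1 := by
        rcases Int.units_eq_one_or ((s(v, p v)).map η).mul with h | h <;> rw [h] <;> simp
      rw [e1, e2, one_mul, mul_one, abs_of_nonneg hq]
      exact hq1.le
    have h2 := (abs_le.1 h1).1
    linarith

end Map

/-- If `Γ` fixes an end of the tree, then every free Ising measure is a `Γ`-factor of IID. -/
theorem endFactor {V : Type*} {G : SimpleGraph V} [G.LocallyFinite] (hG : G.IsTree)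
    {Γ : Subgroup (G ≃g G)} (hΓ : FixesEnd Γ) {θ : ℝ} (h1 : |θ| < 1) {μ : Measure (V → ℤˣ)}
    (hμ : IsFreeIsing G θ μ) : IsGroupFactor G Γ μ := by
  obtain ⟨p, hp1, hp2, hp3⟩ := hΓ
  obtain ⟨sg, hsg⟩ : ∃ sg : ℤˣ, ((sg : ℤ) : ℝ) * |θ| = θ := by
    rcases abs_cases θ with ⟨h, _⟩ | ⟨h, _⟩
    · exact ⟨1, by rw [h]; simp⟩
    · exact ⟨-1, by rw [h]; simp⟩
  have h2 := isFreeIsing_Ph (q := |θ|) hG hp1 hp2 (abs_nonneg θ) h1 sg
  rw [hsg] at h2
  refine ⟨Ph p |θ| sg, measurable_Ph _ _ _, fun g hg => Eventually.of_forall fun U => ?_,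
    H391.isFreeIsing_unique hG h2 hμ⟩
  funext v
  exact Ph_shift (fun v => hp3 g hg v) v

end Vale.Agent.P161.H431
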