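import Vale.Agent.P161.H431.EndFactor

/-!
The stabiliser of an end of a regular tree acts transitively on the vertices, and it is not
unimodular.
-/

open MeasureTheory Filter Topology

namespace Vale.Agent.P161.H431

open Vale.Agent.P161

variable {V : Type*} {G : SimpleGraph V}

/-- an end of the tree, given by the neighbour of each vertex in its direction -/
structure EndMap (G : SimpleGraph V) (p : V → V) : Prop where
  adj : ∀ v, G.Adj v (p v)
  iff : ∀ u v, G.Adj u v → (p u = v ↔ p v ≠ u)

theorem EndMap.ne {p : V → V} (hp : EndMap G p) (v : V) : p (p v) ≠ v :=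
  pp_ne hp.adj hp.iff v

theorem EndMap.nbPath {p : V → V} (hp : EndMap G p) (v : V) (n : ℕ) :
    NBPath G n fun i => p^[i] v := by
  refine ⟨fun i _ => ?_, fun i _ => ?_⟩
  · show G.Adj (p^[i] v) (p^[i + 1] v)
    rw [Function.iterate_succ_apply']
    exact hp.adj _
  · show p^[i] v ≠ p^[i + 2] v
    rw [Function.iterate_succ_apply', Function.iterate_succ_apply']
    exact (hp.ne _).symm

/-- two ends are equal if they agree along a ray -/
theorem EndMap.eq_of_ray (hG : G.Connected) {p p' : V → V} (hp : EndMap G p) (hp' : EndMap G p')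
    {v : V} (h : ∀ i, p' (p^[i] v) = p (p^[i] v)) : p' = p := by
  have step : ∀ y x, G.Adj y x → (∀ i, p' (p^[i] y) = p (p^[i] y)) →
      ∀ i, p' (p^[i] x) = p (p^[i] x) := by
    intro y x hyx hy i
    by_cases hxy : p x = y
    · rcases i with _ | i
      · show p' x = p x
        rw [hxy]
        refine (hp'.iff x y hyx.symm).2 ?_
        have h0 : p' y = p y := hy 0
        rw [h0]
        exact (hp.iff x y hyx.symm).1 hxy
      · rw [Function.iterate_succ_apply, hxy]
        exact hy i
    · have hpy : p y = x := (hp.iff y x hyx).2 hxy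
      have := hy (i + 1)
      rwa [Function.iterate_succ_apply, hpy] at this
  have hall : ∀ x, ∀ i, p' (p^[i] x) = p (p^[i] x) := by
    intro x
    obtain ⟨w⟩ := hG.preconnected v x
    have hwalk : ∀ a b : V, G.Walk a b → (∀ i, p' (p^[i] a) = p (p^[i] a)) →
        ∀ i, p' (p^[i] b) = p (p^[i] b) := by
      intro a b w
      induction w with
      | nil => exact id
      | cons hadj _ ih => exact fun h => ih (step _ _ hadj h)
    exact hwalk _ _ w h
  funext x
  exact hall x 0

variable [G.LocallyFinite]

/-- existence of an end -/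
theorem exists_endMap (hG : G.IsTree) {d : ℕ} (hd : 2 ≤ d) (hreg : G.IsRegularOfDegree d) :
    ∃ p : V → V, EndMap G p := by
  classical
  obtain ⟨o⟩ := hG.connected.nonempty
  have hne : ∀ v, (chil G o v).Nonempty := by
    intro v
    rw [← Finset.card_pos]
    by_cases h : o = v
    · rw [← h, card_chil_root hG hreg]
      omega
    · rw [card_chil hG hreg h]
      omega
  choose c hc using hne
  let r : ℕ → V := fun n => c^[n] o
  have hr0 : r 0 = o := rfl
  have hrs : ∀ n, r (n + 1) = c (r n) := fun n => Function.iterate_succ_apply' c n o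
  have hradj : ∀ n, G.Adj (r n) (r (n + 1)) := by
    intro n
    rw [hrs]
    exact (mem_chil.1 (hc _)).1
  have hrd : ∀ n, G.dist o (r n) = n := by
    intro n
    induction n with
    | zero => rw [hr0, SimpleGraph.dist_self]
    | succ n ih =>
      have := (mem_chil.1 (hc (r n))).2
      rw [hrs, this, ih]
  have hrinj : ∀ i j, r i = r j → i = j := by
    intro i j h
    have h1 := hrd i
    rw [h, hrd j] at h1
    exact h1.symm
  let p : V → V := fun x => if h : ∃ i, x = r i then r (h.choose + 1) else par G o x
  have hpr : ∀ i, p (r i) = r (i + 1) := by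
    intro i
    have h : ∃ j, r i = r j := ⟨i, rfl⟩
    show (if h : ∃ j, r i = r j then r (h.choose + 1) else par G o (r i)) = r (i + 1)
    rw [dif_pos h, hrinj _ _ h.choose_spec.symm]
  have hpn : ∀ x, (¬ ∃ i, x = r i) → p x = par G o x := by
    intro x h
    show (if h : ∃ j, x = r j then r (h.choose + 1) else par G o x) = _
    rw [dif_neg h]
  have hno : ∀ x, (¬ ∃ i, x = r i) → o ≠ x := by
    rintro x h rfl
    exact h ⟨0, rfl⟩
  -- an edge away from the root
  have key : ∀ u v, G.Adj u v → G.dist o v = G.dist o u + 1 →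
      (p u = v ∧ p v ≠ u) ∨ (p u ≠ v ∧ p v = u) := by
    intro u v huv hdist
    by_cases hv : ∃ i, v = r i
    · obtain ⟨i, rfl⟩ := hv
      rcases i with _ | i
      · rw [hrd 0] at hdist
        omega
      · have hu : u = r i := by
          refine adj_dist_unique hG huv (hradj i) hdist.symm ?_
          rw [hrd, hrd]
        left
        rw [hu, hpr, hpr]
        refine ⟨rfl, fun h => ?_⟩
        have := hrinj _ _ h
        omega
    · right
      have h1 : p v = u := by
        rw [hpn v hv]
        exact par_eq_of_mem_chil hG (mem_chil.2 ⟨huv, hdist⟩)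
      refine ⟨fun h => ?_, h1⟩
      by_cases hu : ∃ i, u = r i
      · obtain ⟨i, rfl⟩ := hu
        rw [hpr] at h
        exact hv ⟨i + 1, h.symm⟩
      · rw [hpn u hu] at h
        have h2 := (par_spec hG (hno u hu)).2
        rw [h] at h2
        omega
  refine ⟨p, fun v => ?_, fun u v huv => ?_⟩
  · by_cases hv : ∃ i, v = r i
    · obtain ⟨i, rfl⟩ := hv
      rw [hpr]
      exact hradj i
    · rw [hpn v hv]
      exact (par_spec hG (hno v hv)).1.symm
  · rcases dist_adj_cases hG huv o with h | h
    · rcases key u v huv h with ⟨h1, h2⟩ | ⟨h1, h2⟩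
      · exact ⟨fun _ => h2, fun _ => h1⟩
      · exact ⟨fun h3 => absurd h3 h1, fun h3 => absurd h2 h3⟩
    · rcases key v u huv.symm h with ⟨h1, h2⟩ | ⟨h1, h2⟩
      · exact ⟨fun h3 => absurd h3 h2, fun h3 => absurd h1 h3⟩
      · exact ⟨fun _ => h1, fun _ => h2⟩

/-- the stabiliser of the end -/
def endStab (G : SimpleGraph V) (p : V → V) : Subgroup (G ≃g G) where
  carrier := {g | ∀ v, p (g v) = g (p v)}
  mul_mem' := by
    intro a b ha hb v
    show p (a (b v)) = a (b (p v))
    rw [ha, hb]
  one_mem' := fun v => rfl
  inv_mem' := by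
    intro a ha v
    apply a.injective
    show a (p (a.symm v)) = a (a.symm (p v))
    rw [← ha]
    simp

theorem exists_local_bij_ray (hG : G.IsTree) {p q : ℕ → V}
    (hp : ∀ n, NBPath G n p) (hq : ∀ n, NBPath G n q) (v v' : V) :
    ∃ f : V → V, ((chil G (p 0) v).card = (chil G (q 0) v').card →
      Set.BijOn f (chil G (p 0) v) (chil G (q 0) v')) ∧
      ∀ i, v = p i → v' = q i → (chil G (p 0) v).card = (chil G (q 0) v').card →
        f (p (i + 1)) = q (i + 1) := by
  classical
  by_cases hc : (chil G (p 0) v).card = (chil G (q 0) v').card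
  · by_cases hi : ∃ i, v = p i ∧ v' = q i
    · obtain ⟨i, rfl, rfl⟩ := hi
      have h1 : p (i + 1) ∈ chil G (p 0) (p i) := by
        rw [mem_chil, (hp _).dist_eq hG _ le_rfl, (hp _).dist_eq hG _ le_rfl]
        exact ⟨(hp (i + 1)).1 i (by omega), rfl⟩
      have h2 : q (i + 1) ∈ chil G (q 0) (q i) := by
        rw [mem_chil, (hq _).dist_eq hG _ le_rfl, (hq _).dist_eq hG _ le_rfl]
        exact ⟨(hq (i + 1)).1 i (by omega), rfl⟩
      obtain ⟨f, hf, hf2⟩ := exists_bijOn_of_card hc h1 h2
      refine ⟨f, fun _ => hf, fun j hpj hqj _ => ?_⟩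
      have : j = i := by
        have e1 := (hp j).dist_eq hG j le_rfl
        have e2 := (hp i).dist_eq hG i le_rfl
        rw [← hpj, e2] at e1
        omega
      subst this
      exact hf2
    · obtain ⟨f, hf⟩ := exists_bijOn_of_card' hc
      refine ⟨f, fun _ => hf, fun j hpj hqj _ => ?_⟩
      exact absurd ⟨j, hpj, hqj⟩ hi
  · exact ⟨id, fun h => absurd h hc, fun _ _ _ h => absurd h hc⟩

/-- Transitivity of the automorphism group of a regular tree on rays. -/
theorem exists_aut_of_rays (hG : G.IsTree) {d : ℕ} (hreg : G.IsRegularOfDegree d)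
    {p q : ℕ → V} (hp : ∀ n, NBPath G n p) (hq : ∀ n, NBPath G n q) :
    ∃ φ : G ≃g G, ∀ i, φ (p i) = q i := by
  classical
  set o := p 0 with ho
  set o' := q 0 with ho'
  choose E hE1 hE2 using fun v v' => exists_local_bij_ray hG hp hq v v'
  -- the map
  let f : V → V := fun v => ext G o o' E (G.dist o v) v
  have f_root : f o = o' := by
    simp only [f, SimpleGraph.dist_self]
    rfl
  have f_rec : ∀ v, o ≠ v → f v = E (par G o v) (f (par G o v)) v := by
    intro v hv
    have h := par_spec hG hv
    have h2 : G.dist o v = G.dist o (par G o v) + 1 := h.2.symm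
    simp only [f]
    rw [h2]
    rfl
  -- levels
  have level : ∀ m : ℕ, ∀ v, G.dist o v = m → G.dist o' (f v) = m := by
    intro m
    induction m with
    | zero =>
      intro v hv
      have : o = v := (hG.connected.dist_eq_zero_iff).1 hv
      rw [← this, f_root, SimpleGraph.dist_self]
    | succ m ih =>
      intro v hv
      have hne : o ≠ v := by
        rintro rfl
        simp at hv
      have hps := par_spec hG hne
      have hl : G.dist o' (f (par G o v)) = m := ih _ (by omega)
      have hcard : (chil G o (par G o v)).card = (chil G o' (f (par G o v))).card := by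
        by_cases hr : o = par G o v
        · rw [← hr, f_root, card_chil_root hG hreg, card_chil_root hG hreg]
        · rw [card_chil hG hreg hr, card_chil hG hreg]
          intro h
          have h3 : m = 0 := by
            rw [← hl, ← h, SimpleGraph.dist_self]
          apply hr
          exact (hG.connected.dist_eq_zero_iff).1 (by (clear * - hv hps hl h3; omega))
      have hmem := (hE1 _ _ hcard).mapsTo (mem_chil_par hG hne)
      rw [← f_rec v hne] at hmem
      have hmem' : f v ∈ chil G o' (f (par G o v)) := hmem
      rw [mem_chil] at hmem'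
      omega
  have hcard : ∀ v, (chil G o v).card = (chil G o' (f v)).card := by
    intro v
    by_cases hr : o = v
    · rw [← hr, f_root, card_chil_root hG hreg, card_chil_root hG hreg]
    · rw [card_chil hG hreg hr, card_chil hG hreg]
      intro h
      apply hr
      apply (hG.connected.dist_eq_zero_iff).1
      rw [← level _ v rfl, ← h, SimpleGraph.dist_self]
  have hbij : ∀ v, Set.BijOn (E v (f v)) (chil G o v) (chil G o' (f v)) := fun v =>
    hE1 _ _ (hcard v)
  have fchil : ∀ v w, w ∈ chil G o v → f w = E v (f v) w := by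
    intro v w hw
    have hne : o ≠ w := by
      rintro rfl
      rw [mem_chil] at hw
      simp at hw
    rw [f_rec w hne, par_eq_of_mem_chil hG hw]
  have fchil_mem : ∀ v w, w ∈ chil G o v → f w ∈ chil G o' (f v) := by
    intro v w hw
    rw [fchil v w hw]
    exact (hbij v).mapsTo hw
  have fne : ∀ v, o ≠ v → o' ≠ f v := by
    intro v hv h
    apply hv
    apply (hG.connected.dist_eq_zero_iff).1
    rw [← level _ v rfl, ← h, SimpleGraph.dist_self]
  have fpar : ∀ v, o ≠ v → par G o' (f v) = f (par G o v) := by
    intro v hv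
    exact par_eq_of_mem_chil hG (fchil_mem _ _ (mem_chil_par hG hv))
  -- injectivity
  have inj : ∀ m : ℕ, ∀ v w, G.dist o v = m → f v = f w → v = w := by
    intro m
    induction m with
    | zero =>
      intro v w hv hvw
      have h1 : o = v := (hG.connected.dist_eq_zero_iff).1 hv
      by_contra hne
      have h2 : o ≠ w := by rw [h1]; exact hne
      apply fne w h2
      rw [← hvw, ← h1, f_root]
    | succ m ih =>
      intro v w hv hvw
      have h1 : o ≠ v := by
        rintro rfl
        simp at hv
      have h2 : o ≠ w := by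
        rintro rfl
        apply fne v h1
        rw [hvw, f_root]
      have h3 : par G o v = par G o w := by
        apply ih _ _ (by have := (par_spec hG h1).2; omega)
        rw [← fpar v h1, ← fpar w h2, hvw]
      have h4 := fchil _ _ (mem_chil_par hG h1)
      have h5 := fchil _ _ (mem_chil_par hG h2)
      rw [← h3] at h5
      have hw : w ∈ chil G o (par G o v) := by
        rw [h3]; exact mem_chil_par hG h2
      exact (hbij (par G o v)).injOn (mem_chil_par hG h1) hw (by rw [← h4, ← h5, hvw])
  have surj : ∀ m : ℕ, ∀ v', G.dist o' v' = m → ∃ v, f v = v' := by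
    intro m
    induction m with
    | zero =>
      intro v' hv'
      have : o' = v' := (hG.connected.dist_eq_zero_iff).1 hv'
      exact ⟨o, by rw [f_root, this]⟩
    | succ m ih =>
      intro v' hv'
      have h1 : o' ≠ v' := by
        rintro h
        rw [← h] at hv'
        simp at hv'
      obtain ⟨u, hu⟩ := ih (par G o' v') (by have := (par_spec hG h1).2; omega)
      have h2 : v' ∈ chil G o' (f u) := by
        rw [hu]; exact mem_chil_par hG h1
      obtain ⟨w, hw, hw2⟩ := (hbij u).surjOn h2
      refine ⟨w, ?_⟩
      rw [fchil u w hw, hw2]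
  have hb : Function.Bijective f :=
    ⟨fun v w h => inj _ v w rfl h, fun v' => surj _ v' rfl⟩
  have adj_iff : ∀ v w, G.Adj (f v) (f w) ↔ G.Adj v w := by
    have key : ∀ v w, G.Adj v w → G.dist o w = G.dist o v + 1 → G.Adj (f v) (f w) := by
      intro v w h1 h2
      exact (mem_chil.1 (fchil_mem v w (mem_chil.2 ⟨h1, h2⟩))).1
    have key2 : ∀ v w, G.Adj (f v) (f w) → G.dist o' (f w) = G.dist o' (f v) + 1 →
        G.Adj v w := by
      intro v w h1 h2
      have h3 : f w ∈ chil G o' (f v) := mem_chil.2 ⟨h1, h2⟩
      have hne : o ≠ w := by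
        rintro rfl
        rw [f_root, SimpleGraph.dist_self] at h2
        omega
      have h4 : f (par G o w) = f v := by
        rw [← fpar w hne, par_eq_of_mem_chil hG h3]
      have h5 : par G o w = v := hb.1 h4
      rw [← h5]
      exact (par_spec hG hne).1
    intro v w
    constructor
    · intro h
      rcases dist_adj_cases hG h o' with h1 | h1
      · exact key2 v w h h1
      · exact (key2 w v h.symm h1).symm
    · intro h
      rcases dist_adj_cases hG h o with h1 | h1
      · exact key v w h h1
      · exact (key w v h.symm h1).symm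
  let φ : G ≃g G := ⟨Equiv.ofBijective f hb, fun {v w} => adj_iff v w⟩
  refine ⟨φ, ?_⟩
  intro i
  have hφ : ∀ v, φ v = f v := fun v => rfl
  induction i with
  | zero => rw [hφ]; exact f_root
  | succ i ih =>
    have h1 := ih
    rw [hφ] at h1 ⊢
    have h2 : p (i + 1) ∈ chil G o (p i) := by
      rw [mem_chil, ho, (hp _).dist_eq hG _ le_rfl, (hp _).dist_eq hG _ le_rfl]
      exact ⟨(hp (i + 1)).1 i (by omega), rfl⟩
    rw [fchil _ _ h2]
    apply hE2 _ _ i rfl h1
    exact hcard _


/-- the stabiliser of an end acts transitively on the vertices -/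
theorem endStab_transitive (hG : G.IsTree) {d : ℕ} (hreg : G.IsRegularOfDegree d) {p : V → V}
    (hp : EndMap G p) (u v : V) : ∃ g ∈ endStab G p, g u = v := by
  obtain ⟨φ, hφ⟩ := exists_aut_of_rays hG hreg (p := fun i => p^[i] u) (q := fun i => p^[i] v)
    (fun n => hp.nbPath u n) (fun n => hp.nbPath v n)
  refine ⟨φ, ?_, hφ 0⟩
  -- the transported end
  set p' : V → V := fun x => φ (p (φ.symm x)) with hp'def
  have hp' : EndMap G p' := by
    refine ⟨fun x => ?_, fun x y hxy => ?_⟩
    · have h := φ.map_adj_iff.2 (hp.adj (φ.symm x))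
      rwa [RelIso.apply_symm_apply] at h
    · have h := hp.iff (φ.symm x) (φ.symm y) (φ.symm.map_adj_iff.2 hxy)
      have e1 : p' x = y ↔ p (φ.symm x) = φ.symm y := by
        rw [hp'def]
        constructor
        · intro h1
          rw [← h1]
          simp
        · intro h1
          show φ (p (φ.symm x)) = y
          rw [h1]
          simp
      have e2 : p' y = x ↔ p (φ.symm y) = φ.symm x := by
        rw [hp'def]
        constructor
        · intro h1
          rw [← h1]
          simp
        · intro h1
          show φ (p (φ.symm y)) = x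
          rw [h1]
          simp
      rw [e1, h, ne_eq, ne_eq, e2]
  have heq : p' = p := by
    refine EndMap.eq_of_ray hG.connected hp hp' (v := v) fun i => ?_
    have h1 : φ.symm (p^[i] v) = p^[i] u := by
      have := hφ i
      have h2 : φ (p^[i] u) = p^[i] v := this
      rw [← h2]
      simp
    show φ (p (φ.symm (p^[i] v))) = p (p^[i] v)
    rw [h1]
    have h3 := hφ (i + 1)
    have h4 : φ (p^[i + 1] u) = p^[i + 1] v := h3
    rw [Function.iterate_succ_apply', Function.iterate_succ_apply'] at h4
    exact h4
  intro x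
  have h5 : p' (φ x) = p (φ x) := by rw [heq]
  rw [← h5]
  show φ (p (φ.symm (φ x))) = φ (p x)
  simp

/-- the stabiliser of an end is not unimodular -/
theorem endStab_not_unimodular (hG : G.IsTree) {d : ℕ} (hd : 3 ≤ d)
    (hreg : G.IsRegularOfDegree d) {p : V → V} (hp : EndMap G p) :
    ¬ IsUnimodular (endStab G p) := by
  classical
  intro hu
  obtain ⟨v⟩ := hG.connected.nonempty
  have h1 := hu v (p v) (endStab_transitive hG hreg hp v (p v))
  have h2 : stabOrbit (endStab G p) v (p v) = {p v} := by
    ext x
    constructor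
    · rintro ⟨g, hg, h3, h4⟩
      rw [Set.mem_singleton_iff, ← h4, ← hg v, h3]
    · intro hx
      rw [Set.mem_singleton_iff] at hx
      rw [hx]
      exact ⟨1, (endStab G p).one_mem, rfl, rfl⟩
  rw [h2, Set.ncard_singleton] at h1
  -- a second child of `p v`
  obtain ⟨v', hv', hne1, hne2⟩ : ∃ v', G.Adj (p v) v' ∧ v' ≠ v ∧ v' ≠ p (p v) := by
    have hcard : (G.neighborFinset (p v)).card = d := by
      rw [SimpleGraph.card_neighborFinset_eq_degree]; exact hreg _
    have h3 : (((G.neighborFinset (p v)).erase v).erase (p (p v))).Nonempty := by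
      rw [← Finset.card_pos]
      have h4 := Finset.pred_card_le_card_erase (s := G.neighborFinset (p v)) (a := v)
      have h5 := Finset.pred_card_le_card_erase (s := (G.neighborFinset (p v)).erase v)
        (a := p (p v))
      omega
    obtain ⟨x, hx⟩ := h3
    rw [Finset.mem_erase, Finset.mem_erase, SimpleGraph.mem_neighborFinset] at hx
    exact ⟨x, hx.2.2, hx.2.1, hx.1⟩
  have hpv' : p v' = p v := by
    refine (hp.iff v' (p v) hv'.symm).2 fun h => hne2 h.symm
  obtain ⟨g, hg, hgv⟩ := endStab_transitive hG hreg hp v v'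
  have h6 : v' ∈ stabOrbit (endStab G p) (p v) v := by
    refine ⟨g, hg, ?_, hgv⟩
    rw [← hg v, hgv, hpv']
  have h7 : v ∈ stabOrbit (endStab G p) (p v) v := ⟨1, (endStab G p).one_mem, rfl, rfl⟩
  have h8 := Set.ncard_eq_one.1 h1.symm
  obtain ⟨a, ha⟩ := h8
  rw [ha, Set.mem_singleton_iff] at h6 h7
  exact hne1 (h6.trans h7.symm)

/-- on a regular tree of degree at least three there is a transitive group fixing an end; it is not
unimodular -/
theorem exists_end_group (hG : G.IsTree) {d : ℕ} (hd : 3 ≤ d) (hreg : G.IsRegularOfDegree d) :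
    ∃ Γ : Subgroup (G ≃g G), (∀ u v, ∃ g ∈ Γ, g u = v) ∧ FixesEnd Γ ∧ ¬ IsUnimodular Γ := by
  obtain ⟨p, hp⟩ := exists_endMap hG (by omega) hreg
  exact ⟨endStab G p, fun u v => endStab_transitive hG hreg hp u v,
    ⟨p, hp.adj, hp.iff, fun g hg v => hg v⟩, endStab_not_unimodular hG hd hreg hp⟩

end Vale.Agent.P161.H431
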