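import Vale.Agent.P161.H431.Mtp

/-!
Fields equivariant under a unimodular group with finitely many orbits: the spectral bound.
-/

open MeasureTheory Filter Topology ProbabilityTheory

namespace Vale.Agent.P161.H431

open Vale.Agent.P161

variable {V : Type*} {G : SimpleGraph V} {Γ : Subgroup (G ≃g G)}

/-- bounded measurable fields equivariant under `Γ` -/
structure GFld (Γ : Subgroup (G ≃g G)) (C : ℝ)
    (f : V → (V → unitInterval) → ℝ) : Prop where
  meas : ∀ v, Measurable (f v)
  bdd : ∀ v ω, |f v ω| ≤ C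
  inv : ∀ g ∈ Γ, ∀ v, ∀ᵐ ω ∂(lab V), f (g v) (shft g ω) = f v ω

variable [G.LocallyFinite] {d : ℕ}

theorem GFld.adj {C : ℝ} {f : V → (V → unitInterval) → ℝ} (hreg : G.IsRegularOfDegree d)
    (hf : GFld Γ C f) : GFld Γ (d * C) (adjF (G := G) f) := by
  refine ⟨?_, ?_, ?_⟩
  · intro v
    exact Finset.measurable_sum _ fun u _ => hf.meas u
  · intro v ω
    calc |∑ u ∈ G.neighborFinset v, f u ω| ≤ ∑ u ∈ G.neighborFinset v, |f u ω| :=
          Finset.abs_sum_le_sum_abs _ _
      _ ≤ ∑ u ∈ G.neighborFinset v, C := Finset.sum_le_sum fun u _ => hf.bdd u ω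
      _ = d * C := by
        rw [Finset.sum_const, SimpleGraph.card_neighborFinset_eq_degree, hreg v, nsmul_eq_mul]
  · intro g hg v
    have h1 : ∀ᵐ ω ∂(lab V), ∀ u ∈ G.neighborFinset v, f (g u) (shft g ω) = f u ω := by
      rw [Finset.eventually_all]
      exact fun u _ => hf.inv g hg u
    filter_upwards [h1] with ω hω
    show ∑ u ∈ G.neighborFinset (g v), f u (shft g ω) = ∑ u ∈ G.neighborFinset v, f u ω
    symm
    refine Finset.sum_nbij (fun u => g u) ?_ ?_ ?_ ?_
    · intro u hu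
      rw [SimpleGraph.mem_neighborFinset] at hu ⊢
      exact g.map_adj_iff.2 hu
    · intro a _ b _ h
      exact g.injective h
    · intro w hw
      rw [Finset.mem_coe, SimpleGraph.mem_neighborFinset] at hw
      refine ⟨g.symm w, ?_, by simp⟩
      rw [Finset.mem_coe, SimpleGraph.mem_neighborFinset, ← g.map_adj_iff]
      simpa using hw
    · intro u hu
      exact (hω u hu).symm

omit [G.LocallyFinite] in
theorem GFld.integrable_mul {C C' : ℝ} {f h : V → (V → unitInterval) → ℝ}
    (hf : GFld Γ C f) (hh : GFld Γ C' h) (u v : V) :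
    Integrable (fun ω => f u ω * h v ω) (lab V) := by
  refine Integrable.of_bound ((hf.meas u).mul (hh.meas v)).aestronglyMeasurable (C * C') ?_
  refine Eventually.of_forall fun ω => ?_
  rw [Real.norm_eq_abs, abs_mul]
  exact mul_le_mul (hf.bdd u ω) (hh.bdd v ω) (abs_nonneg _) ((abs_nonneg _).trans (hf.bdd u ω))

omit [G.LocallyFinite] in
theorem GFld.integral_pair {C C' : ℝ} {f h : V → (V → unitInterval) → ℝ}
    (hf : GFld Γ C f) (hh : GFld Γ C' h) (g : G ≃g G) (hg : g ∈ Γ) (u v : V) :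
    ∫ ω, f (g u) ω * h (g v) ω ∂(lab V) = ∫ ω, f u ω * h v ω ∂(lab V) := by
  have h1 : ∫ ω, f (g u) ω * h (g v) ω ∂(lab V) =
      ∫ ω, f (g u) (shft g ω) * h (g v) (shft g ω) ∂(lab V) := by
    have hmp := mp_shft g
    conv_lhs => rw [← hmp.map_eq]
    rw [integral_map hmp.measurable.aemeasurable]
    exact ((hf.meas _).mul (hh.meas _)).aestronglyMeasurable
  rw [h1]
  refine integral_congr_ae ?_
  filter_upwards [hf.inv g hg u, hh.inv g hg v] with ω h1 h2
  rw [h1, h2]

theorem GFld.integral_adj {C C' : ℝ} {f h : V → (V → unitInterval) → ℝ}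
    (hf : GFld Γ C f) (hh : GFld Γ C' h) (v : V) :
    ∀ w, ∫ ω, h w ω * adjF (G := G) f v ω ∂(lab V) =
      nb G (fun u => ∫ ω, h w ω * f u ω ∂(lab V)) v := by
  intro w
  unfold adjF nb
  simp only [Finset.mul_sum]
  rw [integral_finsetSum]
  intro u _
  exact hh.integrable_mul hf w u

theorem GFld.iter {C : ℝ} {f : V → (V → unitInterval) → ℝ} (hreg : G.IsRegularOfDegree d)
    (hf : GFld Γ C f) (n : ℕ) : GFld Γ ((d : ℝ) ^ n * C) ((adjF (G := G))^[n] f) := by
  induction n with
  | zero => simpa using hf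
  | succ n ih =>
    rw [Function.iterate_succ_apply']
    have := ih.adj hreg
    rw [show (d : ℝ) ^ (n + 1) * C = d * ((d : ℝ) ^ n * C) by ring]
    exact this

theorem GFld.corr_iter (hreg : G.IsRegularOfDegree d) {C C' : ℝ}
    {f h : V → (V → unitInterval) → ℝ} (hf : GFld Γ C f) (hh : GFld Γ C' h) (w v : V) (n : ℕ) :
    ∫ ω, h w ω * (adjF (G := G))^[n] f v ω ∂(lab V) =
      (nb G)^[n] (fun u => ∫ ω, h w ω * f u ω ∂(lab V)) v := by
  induction n generalizing v with
  | zero => rfl
  | succ n ih =>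
    rw [Function.iterate_succ_apply', Function.iterate_succ_apply',
      (hf.iter hreg n).integral_adj hh v w]
    congr 1
    funext u
    exact ih u

/-- the inner product of two fields -/
noncomputable def ip (w : V → ℝ) (O : Finset V) (f h : V → (V → unitInterval) → ℝ) : ℝ :=
  ∑ o ∈ O, w o * ∫ ω, f o ω * h o ω ∂(lab V)

variable {w : V → ℝ} {O : Finset V}

/-- self-adjointness -/
theorem ip_sym (hG : G.Connected) (hw : Wt Γ w) (hO : Rep Γ O) {C C' : ℝ}
    {f h : V → (V → unitInterval) → ℝ} (hf : GFld Γ C f) (hh : GFld Γ C' h) :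
    ip w O (adjF (G := G) f) h = ip w O f (adjF (G := G) h) := by
  unfold ip
  have e1 : ∀ o, ∫ ω, adjF (G := G) f o ω * h o ω ∂(lab V) =
      ∑ u ∈ G.neighborFinset o, ∫ ω, h o ω * f u ω ∂(lab V) := by
    intro o
    rw [show (fun ω => adjF (G := G) f o ω * h o ω) = fun ω => h o ω * adjF (G := G) f o ω from
      funext fun ω => mul_comm _ _]
    exact hf.integral_adj hh o o
  have e2 : ∀ o, ∫ ω, f o ω * adjF (G := G) h o ω ∂(lab V) =
      ∑ u ∈ G.neighborFinset o, ∫ ω, h u ω * f o ω ∂(lab V) := by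
    intro o
    rw [hh.integral_adj hf o o]
    unfold nb
    refine Finset.sum_congr rfl fun u _ => ?_
    simp only [mul_comm]
  simp only [e1, e2]
  exact mtp hG hw hO (F := fun x y => ∫ ω, h x ω * f y ω ∂(lab V))
    fun g hg u v => hh.integral_pair hf g hg u v

theorem ip_inner_iter (hG : G.Connected) (hw : Wt Γ w) (hO : Rep Γ O)
    (hreg : G.IsRegularOfDegree d) {C C' : ℝ}
    {f h : V → (V → unitInterval) → ℝ} (hf : GFld Γ C f) (hh : GFld Γ C' h) (n m : ℕ) :
    ip w O ((adjF (G := G))^[n] f) ((adjF (G := G))^[m] h) =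
      ip w O f ((adjF (G := G))^[n + m] h) := by
  induction n generalizing m with
  | zero => simp
  | succ n ih =>
    rw [Function.iterate_succ_apply']
    rw [ip_sym hG hw hO (hf.iter hreg n) (hh.iter hreg m)]
    have := ih (m + 1)
    rw [Function.iterate_succ_apply'] at this
    rw [this, show n + (m + 1) = n + 1 + m by ring]

omit [G.LocallyFinite] in
theorem ip_self_nonneg (hw : Wt Γ w) (f : V → (V → unitInterval) → ℝ) : 0 ≤ ip w O f f :=
  Finset.sum_nonneg fun o _ => mul_nonneg (hw.pos o).le (integral_nonneg fun _ => mul_self_nonneg _)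

omit [G.LocallyFinite] in
theorem sq_ip_le (hw : Wt Γ w) {C C' : ℝ}
    {f h : V → (V → unitInterval) → ℝ} (hf : GFld Γ C f) (hh : GFld Γ C' h) :
    (ip w O f h) ^ 2 ≤ ip w O f f * ip w O h h := by
  unfold ip
  refine Finset.sum_sq_le_sum_mul_sum_of_sq_le_mul O (fun o _ => ?_) (fun o _ => ?_) fun o _ => ?_
  · exact mul_nonneg (hw.pos o).le (integral_nonneg fun _ => mul_self_nonneg _)
  · exact mul_nonneg (hw.pos o).le (integral_nonneg fun _ => mul_self_nonneg _)
  · have h1 := sq_integral_mul_le (P := lab V) (F := f o) (H := h o)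
      (hf.integrable_mul hf o o) (hh.integrable_mul hh o o) (hf.integrable_mul hh o o)
    have h2 : 0 ≤ w o ^ 2 := sq_nonneg _
    calc (w o * ∫ ω, f o ω * h o ω ∂(lab V)) ^ 2 =
          w o ^ 2 * (∫ ω, f o ω * h o ω ∂(lab V)) ^ 2 := by ring
      _ ≤ w o ^ 2 * ((∫ ω, f o ω * f o ω ∂(lab V)) * (∫ ω, h o ω * h o ω ∂(lab V))) :=
          mul_le_mul_of_nonneg_left h1 h2
      _ = _ := by ring

/-- spectral bound for fields whose covariance decays fast -/
theorem ip_norm_iter_le (hG : G.IsTree) (hd : 2 ≤ d) (hreg : G.IsRegularOfDegree d)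
    (hw : Wt Γ w) (hO : Rep Γ O) {C : ℝ}
    {f : V → (V → unitInterval) → ℝ} (hf : GFld Γ C f) {s K : ℝ} (hs : 0 < s)
    (hs2 : ((d : ℝ) - 1) * s ^ 2 = 1) (hK : 0 ≤ K)
    (hcov : ∀ o v, ∫ ω, f o ω * f v ω ∂(lab V) ≤ K * s ^ G.dist o v) (n : ℕ) :
    ip w O ((adjF (G := G))^[n] f) ((adjF (G := G))^[n] f) ≤ (4 / s ^ 2) ^ n * ip w O f f := by
  set N : ℕ → ℝ := fun n => ip w O ((adjF (G := G))^[n] f) ((adjF (G := G))^[n] f) with hN
  have h0 : ∀ n, 0 ≤ N n := fun n => ip_self_nonneg hw _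
  have hlc : ∀ n, N (n + 1) ^ 2 ≤ N n * N (n + 2) := by
    intro n
    have e1 : N (n + 1) = ip w O ((adjF (G := G))^[n] f) ((adjF (G := G))^[n + 2] f) := by
      rw [hN]
      simp only
      rw [ip_inner_iter hG.connected hw hO hreg hf hf, ip_inner_iter hG.connected hw hO hreg hf hf,
        show n + 1 + (n + 1) = n + (n + 2) by ring]
    rw [e1]
    exact sq_ip_le hw (hf.iter hreg n) (hf.iter hreg (n + 2))
  have hWnn : 0 ≤ ∑ o ∈ O, w o := Finset.sum_nonneg fun o _ => (hw.pos o).le
  have hbd : ∀ n, N n ≤ ((∑ o ∈ O, w o) * K) * (4 / s ^ 2) ^ n := by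
    intro n
    rw [hN]
    simp only
    rw [ip_inner_iter hG.connected hw hO hreg hf hf]
    unfold ip
    rw [Finset.sum_mul, Finset.sum_mul]
    refine Finset.sum_le_sum fun o _ => ?_
    rw [mul_assoc]
    refine mul_le_mul_of_nonneg_left ?_ (hw.pos o).le
    rw [hf.corr_iter hreg hf]
    calc (nb G)^[n + n] (fun u => ∫ ω, f o ω * f u ω ∂(lab V)) o
        ≤ (nb G)^[n + n] (fun u => K * s ^ G.dist o u) o := nb_iter_mono (hcov o) _ _
      _ ≤ (2 / s) ^ (n + n) * (K * s ^ G.dist o o) := by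
          refine nb_iter_super (by positivity) ?_ (n + n) o
          intro v
          rw [nb_const_mul]
          calc K * nb G (fun u => s ^ G.dist o u) v ≤ K * ((2 / s) * s ^ G.dist o v) :=
                mul_le_mul_of_nonneg_left (nb_zeta_le hG hd hreg hs hs2 o v) hK
            _ = 2 / s * (K * s ^ G.dist o v) := by ring
      _ = K * (4 / s ^ 2) ^ n := by
          rw [SimpleGraph.dist_self, pow_zero, mul_one, ← two_mul, pow_mul, mul_comm]
          congr 2
          rw [div_pow]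
          norm_num
  have := logconvex_bound h0 hlc (r := 4 / s ^ 2) (by positivity) hbd n
  simpa only [ge_iff_le, hN, Function.iterate_zero, id_eq] using this

theorem ip_compare (hG : G.Connected) (hreg : G.IsRegularOfDegree d) (hw : Wt Γ w) (hO : Rep Γ O)
    {f h : V → (V → unitInterval) → ℝ} (hf : GFld Γ 1 f) (hh : GFld Γ 1 h) (n : ℕ) :
    ip w O f ((adjF (G := G))^[n] f) ≤ ip w O h ((adjF (G := G))^[n] h) +
        ∑ o ∈ O, w o * (2 * (d : ℝ) ^ n * ∫ ω, |f o ω - h o ω| ∂(lab V)) := by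
  have hfn := hf.iter hreg n
  have hhn := hh.iter hreg n
  have e1 : ip w O h ((adjF (G := G))^[n] f) = ip w O f ((adjF (G := G))^[n] h) := by
    have := ip_inner_iter hG hw hO hreg hf hh n 0
    simp only [Function.iterate_zero, id] at this
    rw [add_zero] at this
    rw [← this]
    unfold ip
    simp only [mul_comm]
  have key : ∀ o, ∫ ω, (f o ω - h o ω) *
      ((adjF (G := G))^[n] f o ω + (adjF (G := G))^[n] h o ω) ∂(lab V) ≤
      2 * (d : ℝ) ^ n * ∫ ω, |f o ω - h o ω| ∂(lab V) := by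
    intro o
    have i1 := hf.integrable_mul hfn o o
    have i2 := hh.integrable_mul hfn o o
    have i3 := hf.integrable_mul hhn o o
    have i4 := hh.integrable_mul hhn o o
    have habs : Integrable (fun ω => |f o ω - h o ω|) (lab V) := by
      refine Integrable.of_bound
        ((hf.meas o).sub (hh.meas o)).abs.aestronglyMeasurable 2 (Eventually.of_forall fun ω => ?_)
      rw [Real.norm_eq_abs, abs_abs]
      calc |f o ω - h o ω| ≤ |f o ω| + |h o ω| := abs_sub _ _
        _ ≤ 1 + 1 := add_le_add (hf.bdd o ω) (hh.bdd o ω)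
        _ = 2 := by norm_num
    rw [← integral_const_mul]
    refine integral_mono ?_ (habs.const_mul _) fun ω => ?_
    · have := (i1.sub i2).add (i3.sub i4)
      refine this.congr (Eventually.of_forall fun ω => ?_)
      simp only [Pi.add_apply, Pi.sub_apply]
      ring
    · show (f o ω - h o ω) * ((adjF (G := G))^[n] f o ω + (adjF (G := G))^[n] h o ω) ≤
        2 * (d : ℝ) ^ n * |f o ω - h o ω|
      have h5 : |(adjF (G := G))^[n] f o ω + (adjF (G := G))^[n] h o ω| ≤ 2 * (d : ℝ) ^ n := by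
        have a1 := hfn.bdd o ω
        have a2 := hhn.bdd o ω
        calc _ ≤ |(adjF (G := G))^[n] f o ω| + |(adjF (G := G))^[n] h o ω| := abs_add_le _ _
          _ ≤ (d : ℝ) ^ n * 1 + (d : ℝ) ^ n * 1 := add_le_add a1 a2
          _ = _ := by ring
      calc _ ≤ |(f o ω - h o ω) * ((adjF (G := G))^[n] f o ω + (adjF (G := G))^[n] h o ω)| :=
            le_abs_self _
        _ = |(adjF (G := G))^[n] f o ω + (adjF (G := G))^[n] h o ω| * |f o ω - h o ω| := by
            rw [abs_mul, mul_comm]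
        _ ≤ _ := mul_le_mul_of_nonneg_right h5 (abs_nonneg _)
  have e2 : ip w O f ((adjF (G := G))^[n] f) - ip w O h ((adjF (G := G))^[n] h) =
      ∑ o ∈ O, w o * ∫ ω, (f o ω - h o ω) *
        ((adjF (G := G))^[n] f o ω + (adjF (G := G))^[n] h o ω) ∂(lab V) := by
    have e3 : ∑ o ∈ O, w o * ∫ ω, (f o ω - h o ω) *
        ((adjF (G := G))^[n] f o ω + (adjF (G := G))^[n] h o ω) ∂(lab V) =
        (ip w O f ((adjF (G := G))^[n] f) - ip w O h ((adjF (G := G))^[n] f)) +
        (ip w O f ((adjF (G := G))^[n] h) - ip w O h ((adjF (G := G))^[n] h)) := by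
      unfold ip
      rw [← Finset.sum_sub_distrib, ← Finset.sum_sub_distrib, ← Finset.sum_add_distrib]
      refine Finset.sum_congr rfl fun o _ => ?_
      have i1 := hf.integrable_mul hfn o o
      have i2 := hh.integrable_mul hfn o o
      have i3 := hf.integrable_mul hhn o o
      have i4 := hh.integrable_mul hhn o o
      have e4 : ∫ ω, (f o ω - h o ω) * ((adjF (G := G))^[n] f o ω + (adjF (G := G))^[n] h o ω)
        ∂(lab V) = (∫ ω, f o ω * (adjF (G := G))^[n] f o ω ∂(lab V) -
          ∫ ω, h o ω * (adjF (G := G))^[n] f o ω ∂(lab V)) +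
          (∫ ω, f o ω * (adjF (G := G))^[n] h o ω ∂(lab V) -
          ∫ ω, h o ω * (adjF (G := G))^[n] h o ω ∂(lab V)) := by
        rw [← integral_sub i1 i2, ← integral_sub i3 i4,
          ← integral_add (f := fun ω => f o ω * (adjF (G := G))^[n] f o ω -
              h o ω * (adjF (G := G))^[n] f o ω)
            (g := fun ω => f o ω * (adjF (G := G))^[n] h o ω - h o ω * (adjF (G := G))^[n] h o ω)
            (i1.sub i2) (i3.sub i4)]
        refine integral_congr_ae (Eventually.of_forall fun ω => ?_)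
        ring
      rw [e4]
      ring
    rw [e3, e1]
    ring
  have h3 : ∑ o ∈ O, w o * ∫ ω, (f o ω - h o ω) *
        ((adjF (G := G))^[n] f o ω + (adjF (G := G))^[n] h o ω) ∂(lab V) ≤
      ∑ o ∈ O, w o * (2 * (d : ℝ) ^ n * ∫ ω, |f o ω - h o ω| ∂(lab V)) :=
    Finset.sum_le_sum fun o _ => mul_le_mul_of_nonneg_left (key o) (hw.pos o).le
  linarith only [h3, e2]

end Vale.Agent.P161.H431
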