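import Vale.Agent.P161.H431.Grp

/-!
Local approximation of equivariant fields, by averaging over the labels outside of balls.
-/

open MeasureTheory Filter Topology ProbabilityTheory

namespace Vale.Agent.P161.H431

open Vale.Agent.P161

variable {V : Type*} {G : SimpleGraph V} {Γ : Subgroup (G ≃g G)}

/-- the field averaged over the labels outside the ball of radius `R` -/
noncomputable def locF (G : SimpleGraph V) (R : ℕ) (f : V → (V → unitInterval) → ℝ) (v : V)
    (ω : V → unitInterval) : ℝ :=
  ∫ ω', f v (mixc {x | G.dist v x ≤ R} ω ω') ∂(lab V)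

theorem integral_mix {F : (V → unitInterval) → ℝ} (hF : Measurable F) (hb : ∃ C, ∀ ω, |F ω| ≤ C)
    (A : Set V) : ∫ ω, (∫ ω', F (mixc A ω ω') ∂(lab V)) ∂(lab V) = ∫ ω, F ω ∂(lab V) := by
  obtain ⟨C, hC⟩ := hb
  have hmp := measurePreserving_mixc (ι := V) (volume : Measure unitInterval) A
  have hm : Measurable fun p : (V → unitInterval) × (V → unitInterval) => F (mixc A p.1 p.2) :=
    hF.comp hmp.measurable
  have hint : Integrable (fun p : (V → unitInterval) × (V → unitInterval) => F (mixc A p.1 p.2))
      ((lab V).prod (lab V)) :=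
    Integrable.of_bound hm.aestronglyMeasurable C (Eventually.of_forall fun p => hC _)
  rw [← integral_prod (fun p : (V → unitInterval) × (V → unitInterval) => F (mixc A p.1 p.2)) hint]
  conv_rhs => rw [show (lab V) = Measure.map
    (fun p : (V → unitInterval) × (V → unitInterval) => mixc A p.1 p.2)
    ((lab V).prod (lab V)) from hmp.map_eq.symm]
  rw [integral_map hmp.measurable.aemeasurable hF.aestronglyMeasurable]

theorem mixc_shft {g : G ≃g G} (A B : Set V) (h : ∀ x, g x ∈ B ↔ x ∈ A)
    (ω ω' : V → unitInterval) : mixc B (shft g ω) (shft g ω') = shft g (mixc A ω ω') := by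
  funext x
  have h1 : x ∈ B ↔ g.symm x ∈ A := by
    rw [← h]; simp
  by_cases hx : x ∈ B
  · rw [mixc_of_mem hx]
    show ω (g.symm x) = mixc A ω ω' (g.symm x)
    rw [mixc_of_mem (h1.1 hx)]
  · rw [mixc_of_notMem hx]
    show ω' (g.symm x) = mixc A ω ω' (g.symm x)
    rw [mixc_of_notMem fun h' => hx (h1.2 h')]

theorem GFld.loc (hG : G.Connected) {f : V → (V → unitInterval) → ℝ} (hf : GFld Γ 1 f) (R : ℕ) :
    GFld Γ 1 (locF G R f) := by
  refine ⟨fun v => ?_, fun v ω => ?_, fun g hg v => ?_⟩
  · have hm : Measurable fun p : (V → unitInterval) × (V → unitInterval) =>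
        f v (mixc {x | G.dist v x ≤ R} p.1 p.2) :=
      (hf.meas v).comp (measurePreserving_mixc (ι := V) (volume : Measure unitInterval) _).measurable
    exact (hm.stronglyMeasurable.integral_prod_right' (ν := lab V)).measurable
  · have := norm_integral_le_of_norm_le_const (μ := lab V) (C := 1)
      (f := fun ω' => f v (mixc {x | G.dist v x ≤ R} ω ω'))
      (Eventually.of_forall fun ω' => hf.bdd v _)
    rw [probReal_univ, mul_one] at this
    exact this
  · have hmp := measurePreserving_mixc (ι := V) (volume : Measure unitInterval)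
      {x | G.dist v x ≤ R}
    have h1 := hmp.quasiMeasurePreserving.ae (hf.inv g hg v)
    have h2 := Measure.ae_ae_of_ae_prod h1
    filter_upwards [h2] with ω hω
    have hgm := mp_shft g
    have hm : Measurable fun ω' : V → unitInterval =>
        f (g v) (mixc {x | G.dist (g v) x ≤ R} (shft g ω) ω') :=
      ((hf.meas (g v)).comp (measurePreserving_mixc (ι := V)
        (volume : Measure unitInterval) _).measurable).comp measurable_prodMk_left
    have h3 : locF G R f (g v) (shft g ω) = ∫ ω'', f (g v)
        (mixc {x | G.dist (g v) x ≤ R} (shft g ω) (shft g ω'')) ∂(lab V) := by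
      unfold locF
      conv_lhs => rw [← hgm.map_eq]
      rw [integral_map hgm.measurable.aemeasurable hm.aestronglyMeasurable]
    rw [h3]
    unfold locF
    refine integral_congr_ae ?_
    filter_upwards [hω] with ω'' h4
    rw [mixc_shft (g := g) {x | G.dist v x ≤ R} {x | G.dist (g v) x ≤ R} (fun x => by
      simp only [Set.mem_ofPred_eq]
      rw [dist_aut hG g v x])]
    exact h4

theorem integral_locF {f : V → (V → unitInterval) → ℝ} (hf : GFld Γ 1 f) (R : ℕ) (v : V) :
    ∫ ω, locF G R f v ω ∂(lab V) = ∫ ω, f v ω ∂(lab V) :=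
  integral_mix (hf.meas v) ⟨1, hf.bdd v⟩ _

/-- approximation in mean -/
theorem loc_close {f : V → (V → unitInterval) → ℝ} (hf : GFld Γ 1 f) (hG : G.Connected)
    (o : V) (B : Finset V) {φ : (B → unitInterval) → ℝ} (hφ : Measurable φ) (hφ1 : ∀ x, |φ x| ≤ 1)
    (R : ℕ) (hR : ∀ x ∈ B, G.dist o x ≤ R) :
    ∫ ω, |f o ω - locF G R f o ω| ∂(lab V) ≤
      2 * ∫ ω, |f o ω - φ (B.restrict ω)| ∂(lab V) := by
  set A : Set V := {x | G.dist o x ≤ R} with hA
  have hl := hf.loc hG R
  set D : (V → unitInterval) → ℝ := fun ω => |f o ω - φ (B.restrict ω)| with hD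
  have hDm : Measurable D :=
    ((hf.meas o).sub (hφ.comp (Finset.measurable_restrict B))).abs
  have hDb : ∀ ω, |D ω| ≤ 2 := by
    intro ω
    rw [hD]
    simp only [abs_abs]
    calc |f o ω - φ (B.restrict ω)| ≤ |f o ω| + |φ (B.restrict ω)| := abs_sub _ _
      _ ≤ 1 + 1 := add_le_add (hf.bdd o ω) (hφ1 _)
      _ = 2 := by norm_num
  have hmix : ∀ ω ω' : V → unitInterval, B.restrict (mixc A ω ω') = B.restrict ω := by
    intro ω ω'
    funext i
    exact mixc_of_mem (hR i i.2)
  have hmm : Measurable fun p : (V → unitInterval) × (V → unitInterval) => mixc A p.1 p.2 :=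
    (measurePreserving_mixc (ι := V) (volume : Measure unitInterval) A).measurable
  have hpt : ∀ ω, |f o ω - locF G R f o ω| ≤ D ω + ∫ ω', D (mixc A ω ω') ∂(lab V) := by
    intro ω
    have h1 : φ (B.restrict ω) - locF G R f o ω =
        ∫ ω', (φ (B.restrict (mixc A ω ω')) - f o (mixc A ω ω')) ∂(lab V) := by
      rw [integral_sub]
      · simp only [hmix, integral_const, probReal_univ, smul_eq_mul, one_mul]
        rfl
      · simp only [hmix]
        exact integrable_const _
      · refine Integrable.of_bound (((hf.meas o).comp hmm).comp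
          measurable_prodMk_left).aestronglyMeasurable 1 (Eventually.of_forall fun ω' => ?_)
        exact hf.bdd o _
    have h2 : |φ (B.restrict ω) - locF G R f o ω| ≤ ∫ ω', D (mixc A ω ω') ∂(lab V) := by
      rw [h1]
      refine (abs_integral_le_integral_abs).trans (le_of_eq ?_)
      congr 1
      funext ω'
      exact abs_sub_comm _ _
    calc |f o ω - locF G R f o ω| =
          |(f o ω - φ (B.restrict ω)) + (φ (B.restrict ω) - locF G R f o ω)| := by
            congr 1; ring
      _ ≤ |f o ω - φ (B.restrict ω)| + |φ (B.restrict ω) - locF G R f o ω| := abs_add_le _ _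
      _ ≤ _ := add_le_add le_rfl h2
  have hDi : Integrable D (lab V) :=
    Integrable.of_bound hDm.aestronglyMeasurable 2 (Eventually.of_forall hDb)
  have hEm : Measurable fun ω => ∫ ω', D (mixc A ω ω') ∂(lab V) := by
    have : Measurable fun p : (V → unitInterval) × (V → unitInterval) => D (mixc A p.1 p.2) :=
      hDm.comp hmm
    exact (this.stronglyMeasurable.integral_prod_right' (ν := lab V)).measurable
  have hEi : Integrable (fun ω => ∫ ω', D (mixc A ω ω') ∂(lab V)) (lab V) := by
    refine Integrable.of_bound hEm.aestronglyMeasurable 2 (Eventually.of_forall fun ω => ?_)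
    have := norm_integral_le_of_norm_le_const (μ := lab V) (C := 2)
      (f := fun ω' => D (mixc A ω ω')) (Eventually.of_forall fun ω' => hDb _)
    rw [probReal_univ, mul_one] at this
    exact this
  have habs : Integrable (fun ω => |f o ω - locF G R f o ω|) (lab V) := by
    refine Integrable.of_bound ((hf.meas o).sub (hl.meas o)).abs.aestronglyMeasurable 2
      (Eventually.of_forall fun ω => ?_)
    rw [Real.norm_eq_abs, abs_abs]
    calc |f o ω - locF G R f o ω| ≤ |f o ω| + |locF G R f o ω| := abs_sub _ _
      _ ≤ 1 + 1 := add_le_add (hf.bdd o ω) (hl.bdd o ω)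
      _ = 2 := by norm_num
  calc ∫ ω, |f o ω - locF G R f o ω| ∂(lab V) ≤
        ∫ ω, (D ω + ∫ ω', D (mixc A ω ω') ∂(lab V)) ∂(lab V) :=
        integral_mono habs (hDi.add hEi) hpt
    _ = ∫ ω, D ω ∂(lab V) + ∫ ω, (∫ ω', D (mixc A ω ω') ∂(lab V)) ∂(lab V) :=
        integral_add hDi hEi
    _ = 2 * ∫ ω, D ω ∂(lab V) := by
        rw [integral_mix hDm ⟨2, hDb⟩ A]
        ring

/-- covariance of the local field -/
theorem loc_cov [G.LocallyFinite] (hG : G.Connected) {f : V → (V → unitInterval) → ℝ}
    (hf : GFld Γ 1 f) (hz : ∀ v, ∫ ω, f v ω ∂(lab V) = 0) (R : ℕ) {s : ℝ} (hs : 0 < s)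
    (hs1 : s ≤ 1) (u v : V) :
    ∫ ω, locF G R f u ω * locF G R f v ω ∂(lab V) ≤ (1 / s) ^ (2 * R) * s ^ G.dist u v := by
  classical
  have hl := hf.loc hG R
  by_cases hv : G.dist u v ≤ 2 * R
  · have h1 : ∫ ω, locF G R f u ω * locF G R f v ω ∂(lab V) ≤ ∫ ω, (1 : ℝ) ∂(lab V) := by
      refine integral_mono (hl.integrable_mul hl u v) (integrable_const _) fun ω => ?_
      show locF G R f u ω * locF G R f v ω ≤ 1
      calc locF G R f u ω * locF G R f v ω ≤ |locF G R f u ω * locF G R f v ω| := le_abs_self _
        _ = |locF G R f u ω| * |locF G R f v ω| := abs_mul _ _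
        _ ≤ 1 * 1 := mul_le_mul (hl.bdd u ω) (hl.bdd v ω) (abs_nonneg _) (by norm_num)
        _ = 1 := by norm_num
    rw [integral_const] at h1
    simp only [probReal_univ, smul_eq_mul, mul_one] at h1
    refine h1.trans ?_
    have h2 : s ^ (2 * R) ≤ s ^ G.dist u v := pow_le_pow_of_le_one hs.le hs1 hv
    calc (1 : ℝ) = (1 / s) ^ (2 * R) * s ^ (2 * R) := by
          rw [← mul_pow, one_div, inv_mul_cancel₀ hs.ne', one_pow]
      _ ≤ _ := mul_le_mul_of_nonneg_left h2 (by positivity)
  · let Bf : V → Finset V := fun x => (finite_closedBall hG x R).toFinset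
    have hBf : ∀ x y, y ∈ Bf x ↔ G.dist x y ≤ R := by
      intro x y
      simp only [Bf, Set.Finite.mem_toFinset]
      exact Iff.rfl
    have hdisj : Disjoint (Bf u) (Bf v) := by
      rw [Finset.disjoint_left]
      intro x hx hx'
      rw [hBf] at hx hx'
      have h4 := hG.dist_triangle (u := u) (v := x) (w := v)
      rw [G.dist_comm (u := x) (v := v)] at h4
      omega
    have hind : iIndepFun (fun (i : V) (ω : V → unitInterval) => ω i) (lab V) :=
      iIndepFun_infinitePi (X := fun (_ : V) (u : unitInterval) => u) fun _ => measurable_id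
    have hind2 := hind.indepFun_finset (Bf u) (Bf v) hdisj fun i => measurable_pi_apply i
    let ex : (x : V) → (Bf x → unitInterval) → (V → unitInterval) := fun x y i =>
      if h : i ∈ Bf x then y ⟨i, h⟩ else 0
    have hexm : ∀ x, Measurable (ex x) := by
      intro x
      refine measurable_pi_lambda _ fun i => ?_
      by_cases h : i ∈ Bf x
      · simp only [ex, dif_pos h]
        exact measurable_pi_apply _
      · simp only [ex, dif_neg h]
        exact measurable_const
    let ψ : (x : V) → (Bf x → unitInterval) → ℝ := fun x y => locF G R f x (ex x y)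
    have hψ : ∀ x, Measurable (ψ x) := fun x => (hl.meas x).comp (hexm x)
    have hψe : ∀ x ω, locF G R f x ω = ψ x ((Bf x).restrict ω) := by
      intro x ω
      show ∫ ω', f x (mixc {z | G.dist x z ≤ R} ω ω') ∂(lab V) =
        ∫ ω', f x (mixc {z | G.dist x z ≤ R} (ex x ((Bf x).restrict ω)) ω') ∂(lab V)
      congr 1
      funext ω'
      congr 1
      funext i
      by_cases h : G.dist x i ≤ R
      · have h' : i ∈ {z | G.dist x z ≤ R} := h
        rw [mixc_of_mem h', mixc_of_mem h']
        have : i ∈ Bf x := (hBf x i).2 h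
        simp only [ex, dif_pos this]
        rfl
      · have h' : i ∉ {z | G.dist x z ≤ R} := h
        rw [mixc_of_notMem h', mixc_of_notMem h']
    have hind3 := hind2.comp (hψ u) (hψ v)
    have h5 : ∫ ω, locF G R f u ω * locF G R f v ω ∂(lab V) =
        (∫ ω, locF G R f u ω ∂(lab V)) * (∫ ω, locF G R f v ω ∂(lab V)) := by
      have := hind3.integral_fun_mul_eq_mul_integral ?_ ?_
      · simp only [hψe]
        exact this
      · refine ((hψ u).comp ?_).aestronglyMeasurable
        exact measurable_pi_lambda _ fun i => measurable_pi_apply _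
      · refine ((hψ v).comp ?_).aestronglyMeasurable
        exact measurable_pi_lambda _ fun i => measurable_pi_apply _
    rw [h5, integral_locF hf R u, hz u, zero_mul]
    positivity

end Vale.Agent.P161.H431
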