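import Vale.Agent.P161.H391.Super
import Vale.Agent.P161.H431.Defs

/-!
Unimodular groups of automorphisms: invariant weights and the mass transport principle.
-/

open MeasureTheory Filter Topology

namespace Vale.Agent.P161.H431

open Vale.Agent.P161

variable {V : Type*} {G : SimpleGraph V} {Γ : Subgroup (G ≃g G)}

theorem stabOrbit_nonempty (Γ : Subgroup (G ≃g G)) (u v : V) : v ∈ stabOrbit Γ u v :=
  ⟨1, Γ.one_mem, rfl, rfl⟩

theorem stabOrbit_finite [G.LocallyFinite] (hG : G.Connected) (Γ : Subgroup (G ≃g G)) (u v : V) :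
    (stabOrbit Γ u v).Finite := by
  refine (finite_closedBall hG u (G.dist u v)).subset ?_
  rintro w ⟨g, _, hg1, hg2⟩
  have := dist_aut hG g u v
  rw [hg1, hg2] at this
  exact this.le

theorem ncard_stabOrbit_pos [G.LocallyFinite] (hG : G.Connected) (Γ : Subgroup (G ≃g G))
    (u v : V) : 0 < (stabOrbit Γ u v).ncard :=
  (Set.ncard_pos (stabOrbit_finite hG Γ u v)).2 ⟨v, stabOrbit_nonempty Γ u v⟩

theorem stabOrbit_map {g : G ≃g G} (hg : g ∈ Γ) (u v : V) :
    stabOrbit Γ (g u) (g v) = g '' stabOrbit Γ u v := by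
  ext w
  constructor
  · rintro ⟨k, hk, h1, h2⟩
    refine ⟨g⁻¹ w, ⟨g⁻¹ * k * g, Γ.mul_mem (Γ.mul_mem (Γ.inv_mem hg) hk) hg, ?_, ?_⟩, ?_⟩
    · show g⁻¹ (k (g u)) = u
      rw [h1]
      exact g.symm_apply_apply u
    · show g⁻¹ (k (g v)) = g⁻¹ w
      rw [h2]
    · exact g.apply_symm_apply w
  · rintro ⟨z, ⟨k, hk, h1, h2⟩, rfl⟩
    refine ⟨g * k * g⁻¹, Γ.mul_mem (Γ.mul_mem hg hk) (Γ.inv_mem hg), ?_, ?_⟩
    · show g (k (g⁻¹ (g u))) = g u
      have : g⁻¹ (g u) = u := g.symm_apply_apply u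
      rw [this, h1]
    · show g (k (g⁻¹ (g v))) = g z
      have : g⁻¹ (g v) = v := g.symm_apply_apply v
      rw [this, h2]

theorem ncard_stabOrbit_map {g : G ≃g G} (hg : g ∈ Γ) (u v : V) :
    (stabOrbit Γ (g u) (g v)).ncard = (stabOrbit Γ u v).ncard := by
  rw [stabOrbit_map hg, Set.ncard_image_of_injective _ g.injective]

/-- the stabiliser of a vertex in `Γ` -/
def stb (Γ : Subgroup (G ≃g G)) (u : V) : Subgroup Γ := MulAction.stabilizer Γ u

theorem mem_stb {u : V} {g : Γ} : g ∈ stb Γ u ↔ (g : G ≃g G) u = u := Iff.rfl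

theorem ncard_eq_relIndex (Γ : Subgroup (G ≃g G)) (u v : V) :
    (stabOrbit Γ u v).ncard = (stb Γ v).relIndex (stb Γ u) := by
  have h1 : (stb Γ v).relIndex (stb Γ u) = (MulAction.stabilizer (stb Γ u) v).index := by
    unfold Subgroup.relIndex
    congr 1
  rw [h1, MulAction.index_stabilizer]
  congr 1
  ext w
  constructor
  · rintro ⟨g, hg, h1, h2⟩
    exact ⟨⟨⟨g, hg⟩, h1⟩, h2⟩
  · rintro ⟨⟨⟨g, hg⟩, h1⟩, h2⟩
    exact ⟨g, hg, h1, h2⟩

/-- the index of the stabiliser of three vertices -/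
theorem ratio_triple (Γ : Subgroup (G ≃g G)) (u v w : V) :
    ((stb Γ v ⊓ stb Γ w).relIndex (stb Γ u) : ℝ) * ((stb Γ u).relIndex (stb Γ v) : ℝ) =
      ((stb Γ u ⊓ stb Γ w).relIndex (stb Γ v) : ℝ) * ((stb Γ v).relIndex (stb Γ u) : ℝ) := by
  have h1 : (stb Γ w).relIndex (stb Γ v ⊓ stb Γ u) * (stb Γ v).relIndex (stb Γ u) =
      (stb Γ w ⊓ stb Γ v).relIndex (stb Γ u) := Subgroup.relIndex_inf_mul_relIndex _ _ _
  have h2 : (stb Γ w).relIndex (stb Γ u ⊓ stb Γ v) * (stb Γ u).relIndex (stb Γ v) =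
      (stb Γ w ⊓ stb Γ u).relIndex (stb Γ v) := Subgroup.relIndex_inf_mul_relIndex _ _ _
  rw [inf_comm (stb Γ v) (stb Γ w), inf_comm (stb Γ u) (stb Γ w), ← h1, ← h2,
    inf_comm (stb Γ v) (stb Γ u)]
  push_cast
  ring

theorem relIndex_pos [G.LocallyFinite] (hG : G.Connected) (Γ : Subgroup (G ≃g G)) (u v : V) :
    0 < (stb Γ v).relIndex (stb Γ u) := by
  rw [← ncard_eq_relIndex]
  exact ncard_stabOrbit_pos hG Γ u v

theorem triple_pos [G.LocallyFinite] (hG : G.Connected) (Γ : Subgroup (G ≃g G)) (u v w : V) :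
    0 < (stb Γ v ⊓ stb Γ w).relIndex (stb Γ u) := by
  have h1 : (stb Γ w).relIndex (stb Γ v ⊓ stb Γ u) * (stb Γ v).relIndex (stb Γ u) =
      (stb Γ w ⊓ stb Γ v).relIndex (stb Γ u) := Subgroup.relIndex_inf_mul_relIndex _ _ _
  rw [inf_comm, ← h1]
  refine Nat.mul_pos ?_ (relIndex_pos hG Γ u v)
  have h2 := relIndex_pos hG Γ u w
  rcases Nat.eq_zero_or_pos ((stb Γ w).relIndex (stb Γ v ⊓ stb Γ u)) with h | h
  · exact absurd (Subgroup.relIndex_eq_zero_of_le_right inf_le_right h) h2.ne'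
  · exact h

/-- the cocycle identity of the modular function -/
theorem cocycle [G.LocallyFinite] (hG : G.Connected) (Γ : Subgroup (G ≃g G)) (u v w : V) :
    ((stabOrbit Γ u v).ncard : ℝ) / (stabOrbit Γ v u).ncard *
      (((stabOrbit Γ v w).ncard : ℝ) / (stabOrbit Γ w v).ncard) =
      ((stabOrbit Γ u w).ncard : ℝ) / (stabOrbit Γ w u).ncard := by
  simp only [ncard_eq_relIndex]
  have huv := relIndex_pos hG Γ u v
  have hvu := relIndex_pos hG Γ v u
  have hvw := relIndex_pos hG Γ v w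
  have hwv := relIndex_pos hG Γ w v
  have huw := relIndex_pos hG Γ u w
  have hwu := relIndex_pos hG Γ w u
  have t1 := triple_pos hG Γ u v w
  have t2 := triple_pos hG Γ v u w
  have t3 := triple_pos hG Γ w u v
  have e1 := ratio_triple Γ u v w
  have e2 := ratio_triple Γ v w u
  have e3 := ratio_triple Γ w u v
  rw [inf_comm (stb Γ w) (stb Γ u), inf_comm (stb Γ v) (stb Γ u)] at e2
  rw [inf_comm (stb Γ w) (stb Γ v)] at e3
  set a : ℝ := ((stb Γ v).relIndex (stb Γ u) : ℝ)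
  set a' : ℝ := ((stb Γ u).relIndex (stb Γ v) : ℝ)
  set b : ℝ := ((stb Γ w).relIndex (stb Γ v) : ℝ)
  set b' : ℝ := ((stb Γ v).relIndex (stb Γ w) : ℝ)
  set c : ℝ := ((stb Γ w).relIndex (stb Γ u) : ℝ)
  set c' : ℝ := ((stb Γ u).relIndex (stb Γ w) : ℝ)
  set T : ℝ := ((stb Γ v ⊓ stb Γ w).relIndex (stb Γ u) : ℝ)
  set T' : ℝ := ((stb Γ u ⊓ stb Γ w).relIndex (stb Γ v) : ℝ)
  set T'' : ℝ := ((stb Γ u ⊓ stb Γ v).relIndex (stb Γ w) : ℝ)
  have ha : (0:ℝ) < a := Nat.cast_pos.2 huv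
  have ha' : (0:ℝ) < a' := Nat.cast_pos.2 hvu
  have hb : (0:ℝ) < b := Nat.cast_pos.2 hvw
  have hb' : (0:ℝ) < b' := Nat.cast_pos.2 hwv
  have hc : (0:ℝ) < c := Nat.cast_pos.2 huw
  have hc' : (0:ℝ) < c' := Nat.cast_pos.2 hwu
  have hT : (0:ℝ) < T := Nat.cast_pos.2 t1
  have hT' : (0:ℝ) < T' := Nat.cast_pos.2 t2
  have hT'' : (0:ℝ) < T'' := Nat.cast_pos.2 t3
  -- e1 : T * a' = T' * a ; e2 : T' * b' = T'' * b ; e3 : T'' * c = T * c'
  have r1 : a / a' = T / T' := by rw [div_eq_div_iff ha'.ne' hT'.ne']; linarith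
  have r2 : b / b' = T' / T'' := by rw [div_eq_div_iff hb'.ne' hT''.ne']; linarith
  have r3 : c / c' = T / T'' := by rw [div_eq_div_iff hc'.ne' hT''.ne']; linarith
  rw [r1, r2, r3]
  field_simp

/-- invariant weights on the vertices -/
structure Wt (Γ : Subgroup (G ≃g G)) (w : V → ℝ) : Prop where
  pos : ∀ v, 0 < w v
  inv : ∀ g ∈ Γ, ∀ v, w (g v) = w v
  uni : ∀ u v, w u * (stabOrbit Γ u v).ncard = w v * (stabOrbit Γ v u).ncard

theorem exists_wt [G.LocallyFinite] (hG : G.Connected) (hΓ : IsUnimodular Γ) :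
    ∃ w : V → ℝ, Wt Γ w := by
  obtain ⟨o⟩ := hG.nonempty
  have hp : ∀ u v, (0 : ℝ) < (stabOrbit Γ u v).ncard := fun u v => by
    exact_mod_cast ncard_stabOrbit_pos hG Γ u v
  refine ⟨fun v => ((stabOrbit Γ o v).ncard : ℝ) / (stabOrbit Γ v o).ncard, fun v => ?_,
    fun g hg v => ?_, fun u v => ?_⟩
  · exact div_pos (hp _ _) (hp _ _)
  · show ((stabOrbit Γ o (g v)).ncard : ℝ) / (stabOrbit Γ (g v) o).ncard =
      ((stabOrbit Γ o v).ncard : ℝ) / (stabOrbit Γ v o).ncard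
    rw [← cocycle hG Γ o v (g v), hΓ v (g v) ⟨g, hg, rfl⟩, div_self (hp _ _).ne', mul_one]
  · show ((stabOrbit Γ o u).ncard : ℝ) / (stabOrbit Γ u o).ncard * _ =
      ((stabOrbit Γ o v).ncard : ℝ) / (stabOrbit Γ v o).ncard * _
    rw [← cocycle hG Γ o u v]
    have := hp v u
    field_simp

section MTP

variable {w : V → ℝ} {O : Finset V}

/-- `O` has exactly one vertex in each orbit -/
structure Rep (Γ : Subgroup (G ≃g G)) (O : Finset V) : Prop where
  rep : ∀ v, ∃ g ∈ Γ, g v ∈ O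
  uniq : ∀ u ∈ O, ∀ v ∈ O, ∀ g ∈ Γ, g u = v → u = v

theorem exists_rep (hΓ : IsCofinite Γ) : ∃ O : Finset V, Rep Γ O := by
  classical
  obtain ⟨S, hS, hrep⟩ := hΓ
  -- the finite family of the covering sets, minimal cardinality
  have hne : ∃ n, ∃ O : Finset V, O.card = n ∧ ∀ v, ∃ g ∈ Γ, g v ∈ O :=
    ⟨_, hS.toFinset, rfl, fun v => by
      obtain ⟨g, hg, h⟩ := hrep v
      exact ⟨g, hg, by simpa using h⟩⟩
  obtain ⟨O, hO, hrepO⟩ := Nat.find_spec hne
  refine ⟨O, hrepO, fun u hu v hv g hg huv => ?_⟩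
  by_contra hne'
  refine Nat.find_min hne (m := (O.erase u).card) ?_ ⟨O.erase u, rfl, fun x => ?_⟩
  · rw [← hO]
    exact Finset.card_erase_lt_of_mem hu
  · obtain ⟨k, hk, hx⟩ := hrepO x
    by_cases h : k x = u
    · refine ⟨g * k, Γ.mul_mem hg hk, ?_⟩
      show g (k x) ∈ O.erase u
      rw [h, huv]
      exact Finset.mem_erase.2 ⟨fun h' => hne' h'.symm, hv⟩
    · exact ⟨k, hk, Finset.mem_erase.2 ⟨h, hx⟩⟩

/-- pairs in the same orbit -/
def PR (Γ : Subgroup (G ≃g G)) (a b : V × V) : Prop := ∃ g ∈ Γ, g a.1 = b.1 ∧ g a.2 = b.2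

theorem PR.symm {a b : V × V} (h : PR Γ a b) : PR Γ b a := by
  obtain ⟨g, hg, h1, h2⟩ := h
  refine ⟨g⁻¹, Γ.inv_mem hg, ?_, ?_⟩
  · rw [← h1]; exact g.symm_apply_apply _
  · rw [← h2]; exact g.symm_apply_apply _

theorem PR.swap {a b : V × V} (h : PR Γ a b) : PR Γ a.swap b.swap := by
  obtain ⟨g, hg, h1, h2⟩ := h
  exact ⟨g, hg, h2, h1⟩

open Classical in
/-- the directed edges from the representatives -/
noncomputable def edg (G : SimpleGraph V) [G.LocallyFinite] (O : Finset V) : Finset (V × V) :=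
  O.biUnion fun o => (G.neighborFinset o).image fun u => (o, u)

theorem mem_edg [G.LocallyFinite] {a : V × V} : a ∈ edg G O ↔ a.1 ∈ O ∧ G.Adj a.1 a.2 := by
  classical
  unfold edg
  simp only [Finset.mem_biUnion, Finset.mem_image, SimpleGraph.mem_neighborFinset]
  constructor
  · rintro ⟨o, ho, u, hu, rfl⟩
    exact ⟨ho, hu⟩
  · rintro ⟨h1, h2⟩
    exact ⟨a.1, h1, a.2, h2, rfl⟩

theorem sum_edg [G.LocallyFinite] (O : Finset V) (F : V → V → ℝ) :
    ∑ a ∈ edg G O, F a.1 a.2 = ∑ o ∈ O, ∑ u ∈ G.neighborFinset o, F o u := by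
  classical
  unfold edg
  rw [Finset.sum_biUnion]
  · refine Finset.sum_congr rfl fun o _ => ?_
    rw [Finset.sum_image]
    intro a _ b _ h
    exact (Prod.ext_iff.1 h).2
  · intro a _ b _ hab
    rw [Function.onFun, Finset.disjoint_left]
    intro x hx hx'
    rw [Finset.mem_image] at hx hx'
    obtain ⟨_, _, rfl⟩ := hx
    obtain ⟨_, _, h⟩ := hx'
    exact hab (Prod.ext_iff.1 h).1.symm

open Classical in
theorem count_edg [G.LocallyFinite] (hO : Rep Γ O) {x y : V}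
    (hxy : G.Adj x y) :
    ((edg G O).filter fun b => PR Γ (x, y) b).card = (stabOrbit Γ x y).ncard := by
  obtain ⟨k, hk, hkx⟩ := hO.rep x
  have hset : (((edg G O).filter fun b => PR Γ (x, y) b : Finset (V × V)) : Set (V × V)) =
      (fun z => (k x, k z)) '' stabOrbit Γ x y := by
    ext b
    simp only [Finset.coe_filter, Set.mem_ofPred_eq, Set.mem_image]
    constructor
    · rintro ⟨hb, g, hg, h1, h2⟩
      have hb' := mem_edg.1 hb
      have hk1 : k x = b.1 := by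
        refine hO.uniq _ hkx _ hb'.1 (g * k⁻¹) (Γ.mul_mem hg (Γ.inv_mem hk)) ?_
        show g (k⁻¹ (k x)) = b.1
        have : k⁻¹ (k x) = x := k.symm_apply_apply x
        rw [this]
        exact h1
      refine ⟨k⁻¹ b.2, ⟨k⁻¹ * g, Γ.mul_mem (Γ.inv_mem hk) hg, ?_, ?_⟩, ?_⟩
      · show k⁻¹ (g x) = x
        have h1' : g x = b.1 := h1
        rw [h1', ← hk1]
        exact k.symm_apply_apply x
      · show k⁻¹ (g y) = k⁻¹ b.2
        have h2' : g y = b.2 := h2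
        rw [h2']
      · refine Prod.ext hk1 ?_
        exact k.apply_symm_apply b.2
    · rintro ⟨z, ⟨g, hg, h1, h2⟩, rfl⟩
      have hadj : G.Adj (k x) (k z) := by
        rw [k.map_adj_iff]
        have h3 : G.Adj (g x) (g y) := g.map_adj_iff.2 hxy
        rwa [h1, h2] at h3
      exact ⟨mem_edg.2 ⟨hkx, hadj⟩, k * g, Γ.mul_mem hk hg, by
        show k (g x) = k x
        rw [h1], by
        show k (g y) = k z
        rw [h2]⟩
  rw [← Set.ncard_coe_finset, hset, Set.ncard_image_of_injective]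
  intro a b h
  exact k.injective (Prod.ext_iff.1 h).2

/-- the mass transport principle, for functions of adjacent vertices -/
theorem mtp [G.LocallyFinite] (hG : G.Connected) (hw : Wt Γ w) (hO : Rep Γ O) {F : V → V → ℝ}
    (hF : ∀ g ∈ Γ, ∀ u v, F (g u) (g v) = F u v) :
    ∑ o ∈ O, w o * ∑ u ∈ G.neighborFinset o, F o u =
      ∑ o ∈ O, w o * ∑ u ∈ G.neighborFinset o, F u o := by
  classical
  simp only [Finset.mul_sum]
  rw [← sum_edg O (fun o u => w o * F o u), ← sum_edg O (fun o u => w o * F u o)]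
  have hp : ∀ u v, (0 : ℝ) < (stabOrbit Γ u v).ncard := fun u v => by
    exact_mod_cast ncard_stabOrbit_pos hG Γ u v
  -- first expression
  have h1 : ∑ a ∈ edg G O, w a.1 * F a.1 a.2 = ∑ a ∈ edg G O, ∑ b ∈ edg G O,
      if PR Γ a.swap b then w a.1 * F a.1 a.2 / (stabOrbit Γ a.2 a.1).ncard else 0 := by
    refine Finset.sum_congr rfl fun a ha => ?_
    rw [← Finset.sum_filter, Finset.sum_const, nsmul_eq_mul]
    have h := count_edg hO (mem_edg.1 ha).2.symm
    have e : a.swap = (a.2, a.1) := rfl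
    rw [e, h]
    have := hp a.2 a.1
    field_simp
  rw [h1, Finset.sum_comm]
  refine Finset.sum_congr rfl fun b hb => ?_
  have h2 : ∀ a ∈ edg G O, (if PR Γ a.swap b then
      w a.1 * F a.1 a.2 / (stabOrbit Γ a.2 a.1).ncard else 0) =
      if PR Γ b.swap a then w b.2 * F b.2 b.1 / (stabOrbit Γ b.1 b.2).ncard else 0 := by
    intro a _
    have hiff : PR Γ a.swap b ↔ PR Γ b.swap a :=
      ⟨fun h => by simpa using h.swap.symm, fun h => by simpa using h.swap.symm⟩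
    by_cases h : PR Γ a.swap b
    · rw [if_pos h, if_pos (hiff.1 h)]
      obtain ⟨g, hg, h3, h4⟩ := h
      have h3' : g a.2 = b.1 := h3
      have h4' : g a.1 = b.2 := h4
      rw [← h3', ← h4', hw.inv g hg, hF g hg, ncard_stabOrbit_map hg]
    · rw [if_neg h, if_neg (fun h' => h (hiff.2 h'))]
  rw [Finset.sum_congr rfl h2, ← Finset.sum_filter, Finset.sum_const, nsmul_eq_mul]
  have h := count_edg hO (mem_edg.1 hb).2.symm
  have e : b.swap = (b.2, b.1) := rfl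
  rw [e, h]
  have h5 := hw.uni b.1 b.2
  have h6 := hp b.1 b.2
  rw [mul_div_assoc', div_eq_iff h6.ne']
  calc ((stabOrbit Γ b.2 b.1).ncard : ℝ) * (w b.2 * F b.2 b.1) =
        (w b.2 * (stabOrbit Γ b.2 b.1).ncard) * F b.2 b.1 := by ring
    _ = (w b.1 * (stabOrbit Γ b.1 b.2).ncard) * F b.2 b.1 := by rw [h5]
    _ = w b.1 * F b.2 b.1 * (stabOrbit Γ b.1 b.2).ncard := by ring

end MTP

end Vale.Agent.P161.H431
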