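import Vale.Agent.P161.H431.Loc

/-!
Above the reconstruction threshold the free Ising measure is not a factor of IID relative to any
unimodular group of automorphisms with finitely many orbits.
-/

open MeasureTheory Filter Topology ProbabilityTheory

namespace Vale.Agent.P161.H431

open Vale.Agent.P161

variable {V : Type*} {G : SimpleGraph V} {Γ : Subgroup (G ≃g G)}

theorem isSign_dist (hG : G.IsTree) (o : V) : H391.IsSign G fun v => (-1) ^ G.dist o v := by
  intro u v huv
  rcases dist_adj_cases hG huv o with h | h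
  · show (-1 : ℤˣ) ^ G.dist o u = - (-1) ^ G.dist o v
    rw [h, pow_succ]; simp
  · show (-1 : ℤˣ) ^ G.dist o u = - (-1) ^ G.dist o v
    rw [h, pow_succ]; simp

/-- correlations of the free Ising measure, for either sign of the parameter -/
theorem integral_sp_sp_any [G.LocallyFinite] (hG : G.IsTree) {θ : ℝ} (h1 : |θ| < 1)
    {μ : Measure (V → ℤˣ)} (hμ : IsFreeIsing G θ μ) (u v : V) :
    ∫ σ, sp σ u * sp σ v ∂μ = θ ^ G.dist u v := by
  rcases le_or_gt 0 θ with h0 | h0
  · exact integral_sp_sp hG h0 (abs_lt.1 h1).2 hμ u v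
  · have h2 : 0 ≤ -θ := by linarith
    have h3 : -θ < 1 := by linarith [(abs_lt.1 h1).1]
    have hμ' : IsFreeIsing G (-(-θ)) μ := by rwa [neg_neg]
    rw [H391.integral_sp_sp_twm hG h2 h3 (isSign_dist hG u) hμ' u v]
    have e1 : H391.sr (fun v => (-1 : ℤˣ) ^ G.dist u v) v = (-1) ^ G.dist u v := by
      unfold H391.sr
      push_cast
      rfl
    have e2 : H391.sr (fun v => (-1 : ℤˣ) ^ G.dist u v) u = 1 := by
      unfold H391.sr
      simp
    rw [e1, e2, one_mul, ← mul_pow]
    congr 1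
    ring

theorem nb_eps [G.LocallyFinite] (hG : G.IsTree) {ε : ℝ} (hε : ε * ε = 1) (o : V) (ψ : V → ℝ)
    (v : V) : nb G (fun u => ε ^ G.dist o u * ψ u) v = ε * ε ^ G.dist o v * nb G ψ v := by
  unfold nb
  rw [Finset.mul_sum]
  refine Finset.sum_congr rfl fun u hu => ?_
  rw [SimpleGraph.mem_neighborFinset] at hu
  show ε ^ G.dist o u * ψ u = ε * ε ^ G.dist o v * ψ u
  rcases dist_adj_cases hG hu o with h | h
  · rw [h, pow_succ]
    ring
  · rw [h, pow_succ]
    calc ε ^ G.dist o u * ψ u = ε ^ G.dist o u * (ε * ε) * ψ u := by rw [hε, mul_one]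
      _ = _ := by ring

theorem nb_iter_eps [G.LocallyFinite] (hG : G.IsTree) {ε : ℝ} (hε : ε * ε = 1) (o : V)
    (ψ : V → ℝ) (n : ℕ) (v : V) :
    (nb G)^[n] (fun u => ε ^ G.dist o u * ψ u) v = ε ^ n * ε ^ G.dist o v * (nb G)^[n] ψ v := by
  induction n generalizing v with
  | zero => simp
  | succ n ih =>
    rw [Function.iterate_succ_apply', Function.iterate_succ_apply']
    have e : (nb G)^[n] (fun u => ε ^ G.dist o u * ψ u) =
        fun u => ε ^ n * (ε ^ G.dist o u * (nb G)^[n] ψ u) := by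
      funext u
      rw [ih u, mul_assoc]
    rw [e, nb_const_mul]
    show ε ^ n * nb G (fun u => ε ^ G.dist o u * (nb G)^[n] ψ u) v = _
    rw [nb_eps hG hε]
    ring

theorem not_groupFactor [G.LocallyFinite] (hG : G.IsTree) {d : ℕ} (hd : 2 ≤ d)
    (hreg : G.IsRegularOfDegree d) (hc : IsCofinite Γ) (hu : IsUnimodular Γ) {t : ℝ}
    (h1 : |t| < 1) (hs : 1 < ((d : ℝ) - 1) * t ^ 2) {μ : Measure (V → ℤˣ)}
    (hμ : IsFreeIsing G t μ) : ¬ IsGroupFactor G Γ μ := by
  rintro ⟨Φ, hΦ, hequiv, hmap⟩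
  have hprob := hμ.isProb
  obtain ⟨w, hw⟩ := exists_wt hG.connected hu
  obtain ⟨O, hO⟩ := exists_rep hc
  set θ : ℝ := |t| with hθdef
  have hθ2 : θ ^ 2 = t ^ 2 := sq_abs t
  have hθ : 0 < θ := by
    rcases (abs_nonneg t).lt_or_eq with h | h
    · exact h
    · exfalso
      rw [← hθ2, hθdef, ← h] at hs
      norm_num at hs
  rw [← hθ2] at hs
  obtain ⟨ε, hε, htε⟩ : ∃ ε : ℝ, ε * ε = 1 ∧ t = ε * θ := by
    rcases abs_cases t with ⟨h, _⟩ | ⟨h, _⟩
    · exact ⟨1, by norm_num, by rw [hθdef, h, one_mul]⟩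
    · exact ⟨-1, by norm_num, by rw [hθdef, h]; ring⟩
  have hd1 : (0 : ℝ) < (d : ℝ) - 1 := by
    by_contra h
    push Not at h
    have : ((d : ℝ) - 1) * θ ^ 2 ≤ 0 := mul_nonpos_of_nonpos_of_nonneg h (sq_nonneg _)
    linarith only [hs, this]
  set s : ℝ := 1 / Real.sqrt ((d : ℝ) - 1) with hsdef
  have hsq : 0 < Real.sqrt ((d : ℝ) - 1) := Real.sqrt_pos.2 hd1
  have hs0 : 0 < s := by (clear * - hd1; positivity)
  have hs2 : ((d : ℝ) - 1) * s ^ 2 = 1 := by
    rw [hsdef, div_pow, one_pow, Real.sq_sqrt hd1.le]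
    (clear * - hd1; field_simp)
  have hsθ : s < θ := by
    have : s ^ 2 < θ ^ 2 := by
      have h2 : ((d : ℝ) - 1) * s ^ 2 < ((d : ℝ) - 1) * θ ^ 2 := by rw [hs2]; exact hs
      exact lt_of_mul_lt_mul_left h2 hd1.le
    exact lt_of_pow_lt_pow_left₀ 2 hθ.le this
  have hs1 : s ≤ 1 := (hsθ.trans h1).le
  -- the field
  let f : V → (V → unitInterval) → ℝ := fun v ω => sp (Φ ω) v
  have hfm : ∀ v, Measurable (f v) := fun v => (measurable_sp v).comp hΦ
  have hf : GFld Γ 1 f := by
    refine ⟨hfm, fun v ω => ?_, fun g hg v => ?_⟩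
    · rcases sp_eq_one_or (Φ ω) v with h | h <;> simp [f, h]
    · filter_upwards [hequiv g hg] with ω hω
      show sp (Φ (shft g ω)) (g v) = sp (Φ ω) v
      have h2 : Φ (shft g ω) = fun v => Φ ω (g.symm v) := hω
      rw [h2]
      simp [sp]
  have hmean : ∀ v, ∫ ω, f v ω ∂(lab V) = 0 := by
    intro v
    rw [← integral_sp_eq_zero hμ v, ← hmap, integral_map hΦ.aemeasurable
      (measurable_sp v).aestronglyMeasurable]
  have hcov : ∀ o v, ∫ ω, f o ω * f v ω ∂(lab V) = ε ^ G.dist o v * θ ^ G.dist o v := by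
    intro o v
    have hm2 : Measurable fun σ : V → ℤˣ => sp σ o * sp σ v :=
      (measurable_sp o).mul (measurable_sp v)
    rw [← mul_pow, ← htε, ← integral_sp_sp_any hG h1 hμ o v, ← hmap, integral_map hΦ.aemeasurable
      hm2.aestronglyMeasurable]
  -- lower bound
  choose φ hφo hφle hφe using fun o => exists_eigen hG hd hreg hθ h1 hs o
  set lam : ℝ := ((d : ℝ) - 1) * θ + 1 / θ with hlam
  set c0 : ℝ := ∑ o ∈ O, w o * φ o o with hc0
  set W : ℝ := ∑ o ∈ O, w o with hW
  have hOne : O.Nonempty := by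
    obtain ⟨v⟩ := hG.connected.nonempty
    obtain ⟨g, _, h⟩ := hO.rep v
    exact ⟨_, h⟩
  have hc0pos : 0 < c0 := Finset.sum_pos (fun o _ => mul_pos (hw.pos o) (hφo o)) hOne
  have hWpos : 0 < W := Finset.sum_pos (fun o _ => hw.pos o) hOne
  have hlow : ∀ n : ℕ, Even n → lam ^ n * c0 ≤ ip w O f ((adjF (G := G))^[n] f) := by
    intro n hn
    have hen : ε ^ n = 1 := by
      obtain ⟨m, rfl⟩ := hn
      rw [← two_mul, pow_mul, pow_two, hε, one_pow]
    unfold ip
    rw [hc0, Finset.mul_sum]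
    refine Finset.sum_le_sum fun o _ => ?_
    rw [hf.corr_iter hreg hf o o n]
    simp only [hcov]
    rw [nb_iter_eps hG hε, hen, SimpleGraph.dist_self, pow_zero, one_mul, one_mul]
    have h2 : lam ^ n * φ o o ≤ (nb G)^[n] (fun u => θ ^ G.dist o u) o := by
      rw [← nb_iter_eigen (hφe o) n o]
      exact nb_iter_mono (hφle o) n o
    calc lam ^ n * (w o * φ o o) = w o * (lam ^ n * φ o o) := by ring
      _ ≤ _ := mul_le_mul_of_nonneg_left h2 (hw.pos o).le
  -- upper bound
  have hup : ∀ n : ℕ, ip w O f ((adjF (G := G))^[n] f) ≤ (2 / s) ^ n * W := by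
    intro n
    refine le_of_forall_pos_le_add fun δ hδ => ?_
    have hdn : (0 : ℝ) < (d : ℝ) ^ n := by
      have : (0 : ℝ) < d := by exact_mod_cast (by omega : 0 < d)
      (clear * - this; positivity)
    set δ' : ℝ := δ / (4 * (d : ℝ) ^ n * W) with hδ'
    have hδ'0 : 0 < δ' := by (clear * - hδ hdn hWpos hδ'; positivity)
    choose B φ' hφ'm hφ'1 _ hφ'e using fun o => local_approx hG o (hfm o) (hf.bdd o) hδ'0
    obtain ⟨R, hR⟩ : ∃ R : ℕ, ∀ o ∈ O, ∀ i ∈ B o, G.dist o i ≤ R :=
      ⟨O.sup fun o => (B o).sup fun i => G.dist o i, fun o ho i hi =>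
        (Finset.le_sup (f := fun i => G.dist o i) hi).trans
          (Finset.le_sup (f := fun o => (B o).sup fun i => G.dist o i) ho)⟩
    have hh : GFld Γ 1 (locF G R f) := hf.loc hG.connected R
    refine (ip_compare hG.connected hreg hw hO hf hh n).trans ?_
    refine add_le_add ?_ ?_
    · have hN := ip_norm_iter_le hG hd hreg hw hO hh hs0 hs2
        (K := (1 / s) ^ (2 * R)) (by (clear * - hs0; positivity))
        (fun o v => loc_cov hG.connected hf hmean R hs0 hs1 o v) n
      have h1' : ip w O (locF G R f) (locF G R f) ≤ W := by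
        unfold ip
        refine Finset.sum_le_sum fun o _ => ?_
        have : ∫ ω, locF G R f o ω * locF G R f o ω ∂(lab V) ≤ ∫ ω, (1 : ℝ) ∂(lab V) := by
          refine integral_mono (hh.integrable_mul hh o o) (integrable_const _) fun ω => ?_
          show locF G R f o ω * locF G R f o ω ≤ 1
          calc locF G R f o ω * locF G R f o ω ≤ |locF G R f o ω * locF G R f o ω| := le_abs_self _
            _ = |locF G R f o ω| * |locF G R f o ω| := abs_mul _ _
            _ ≤ 1 * 1 := mul_le_mul (hh.bdd o ω) (hh.bdd o ω) (abs_nonneg _) (by norm_num)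
            _ = 1 := by norm_num
        rw [integral_const] at this
        simp only [probReal_univ, smul_eq_mul, mul_one] at this
        calc w o * ∫ ω, locF G R f o ω * locF G R f o ω ∂(lab V) ≤ w o * 1 :=
              mul_le_mul_of_nonneg_left this (hw.pos o).le
          _ = w o := mul_one _
      have h0' : 0 ≤ ip w O (locF G R f) (locF G R f) := ip_self_nonneg hw _
      have hCS := sq_ip_le (O := O) hw hh (hh.iter hreg n)
      have h4 : (0 : ℝ) ≤ (4 / s ^ 2) ^ n := by (clear * - hs0; positivity)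
      have h5 : (ip w O (locF G R f) ((adjF (G := G))^[n] (locF G R f))) ^ 2 ≤
          ((2 / s) ^ n * W) ^ 2 := by
        calc _ ≤ _ := hCS
          _ ≤ W * ((4 / s ^ 2) ^ n * W) := by
              refine mul_le_mul h1' (hN.trans ?_) (ip_self_nonneg hw _) hWpos.le
              exact mul_le_mul_of_nonneg_left h1' h4
          _ = ((2 / s) ^ n * W) ^ 2 := by
              have e4 : (4 / s ^ 2 : ℝ) = (2 / s) ^ 2 := by ring
              rw [mul_pow, ← pow_mul, mul_comm n 2, pow_mul, e4]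
              ring
      exact abs_le_of_sq_le_sq' h5 (by (clear * - hs0 hWpos; positivity)) |>.2
    · have h6 : ∀ o ∈ O, w o * (2 * (d : ℝ) ^ n * ∫ ω, |f o ω - locF G R f o ω| ∂(lab V)) ≤
          w o * (4 * (d : ℝ) ^ n * δ') := by
        intro o ho
        refine mul_le_mul_of_nonneg_left ?_ (hw.pos o).le
        have h7 := loc_close hf hG.connected o (B o) (hφ'm o) (hφ'1 o) R (hR o ho)
        have h8 : ∫ ω, |f o ω - locF G R f o ω| ∂(lab V) ≤ 2 * δ' :=
          h7.trans (mul_le_mul_of_nonneg_left (hφ'e o) (by norm_num))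
        calc 2 * (d : ℝ) ^ n * ∫ ω, |f o ω - locF G R f o ω| ∂(lab V) ≤
              2 * (d : ℝ) ^ n * (2 * δ') :=
              mul_le_mul_of_nonneg_left h8 (by (clear * - hdn; positivity))
          _ = 4 * (d : ℝ) ^ n * δ' := by ring
      refine (Finset.sum_le_sum h6).trans (le_of_eq ?_)
      rw [← Finset.sum_mul, ← hW, hδ']
      (clear * - hdn hWpos; field_simp)
  -- conclusion
  have hgt : 1 < lam * s / 2 := by
    have h7 : lam * s / 2 - 1 = (θ / s - 1) ^ 2 * s / (2 * θ) := by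
      have h8 : (d : ℝ) - 1 = 1 / s ^ 2 := by
        field_simp
        linarith only [hs2]
      rw [hlam, h8]
      field_simp
      ring
    have h9 : 0 < (θ / s - 1) ^ 2 * s / (2 * θ) := by
      have : 0 < θ / s - 1 := by
        rw [sub_pos, lt_div_iff₀ hs0]
        linarith only [hsθ]
      (clear * - this hs0 hθ; positivity)
    linarith only [h7, h9]
  have hall : ∀ n : ℕ, Even n → (lam * s / 2) ^ n * c0 ≤ W := by
    intro n hn
    have h10 := (hlow n hn).trans (hup n)
    have h11 : (lam * s / 2) ^ n * c0 = (lam ^ n * c0) * (s / 2) ^ n := by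
      rw [show lam * s / 2 = lam * (s / 2) by ring, mul_pow]
      ring
    rw [h11]
    calc (lam ^ n * c0) * (s / 2) ^ n ≤ ((2 / s) ^ n * W) * (s / 2) ^ n :=
          mul_le_mul_of_nonneg_right h10 (by (clear * - hs0; positivity))
      _ = ((2 / s) ^ n * (s / 2) ^ n) * W := by ring
      _ = W := by
          rw [← mul_pow]
          have : 2 / s * (s / 2) = 1 := by (clear * - hs0; field_simp)
          rw [this, one_pow, one_mul]
  obtain ⟨n, hn⟩ := pow_unbounded_of_one_lt (W / c0) hgt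
  have h12 := hall (2 * n) ⟨n, by ring⟩
  have h13 : (lam * s / 2) ^ n ≤ (lam * s / 2) ^ (2 * n) :=
    pow_le_pow_right₀ hgt.le (by omega)
  rw [div_lt_iff₀ hc0pos] at hn
  have h14 := mul_le_mul_of_nonneg_right h13 hc0pos.le
  linarith only [hn, h12, h14]

end Vale.Agent.P161.H431
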