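import Vale.Agent.P161.H431.Neg
import Vale.Agent.P161.H431.EndGroup

/-!
Examples of unimodular groups, and the positive half.
-/

open MeasureTheory

namespace Vale.Agent.P161.H431

open Vale.Agent.P161

variable {V : Type*} {G : SimpleGraph V}

/-- a factor of IID is a factor of IID relative to every group of automorphisms -/
theorem groupFactor_of_factor {μ : Measure (V → ℤˣ)} (h : IsFactorOfIID G μ)
    (Γ : Subgroup (G ≃g G)) : IsGroupFactor G Γ μ := by
  obtain ⟨Φ, h1, h2, h3⟩ := h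
  exact ⟨Φ, h1, fun g _ => h2 g, h3⟩

/-- relative to the whole automorphism group nothing changes -/
theorem groupFactor_top {μ : Measure (V → ℤˣ)} : IsGroupFactor G ⊤ μ ↔ IsFactorOfIID G μ := by
  constructor
  · rintro ⟨Φ, h1, h2, h3⟩
    exact ⟨Φ, h1, fun g => h2 g (Subgroup.mem_top g), h3⟩
  · exact fun h => groupFactor_of_factor h ⊤

theorem isCofinite_top (hG : G.IsTree) [G.LocallyFinite] {d : ℕ} (hreg : G.IsRegularOfDegree d) :
    IsCofinite (⊤ : Subgroup (G ≃g G)) := by
  obtain ⟨o⟩ := hG.connected.nonempty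
  refine ⟨{o}, Set.finite_singleton o, fun v => ?_⟩
  have hp : NBPath G 0 fun _ => v := ⟨fun i hi => absurd hi (by omega), fun i hi => absurd hi (by omega)⟩
  have hq : NBPath G 0 fun _ => o := ⟨fun i hi => absurd hi (by omega), fun i hi => absurd hi (by omega)⟩
  obtain ⟨φ, hφ⟩ := exists_aut_of_paths hG hreg hp hq
  exact ⟨φ, Subgroup.mem_top _, hφ 0 le_rfl⟩

/-- the whole automorphism group of a regular tree is unimodular -/
theorem isUnimodular_top (hG : G.IsTree) [G.LocallyFinite] {d : ℕ}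
    (hreg : G.IsRegularOfDegree d) : IsUnimodular (⊤ : Subgroup (G ≃g G)) := by
  intro u v _
  obtain ⟨p, hp, hp0, hpn⟩ := exists_nbPath hG u v
  have hq : NBPath G (G.dist u v) fun i => p (G.dist u v - i) := by
    refine ⟨fun i hi => ?_, fun i hi => ?_⟩
    · have h := hp.1 (G.dist u v - (i + 1)) (by omega)
      rw [show G.dist u v - (i + 1) + 1 = G.dist u v - i by omega] at h
      exact h.symm
    · have h := hp.2 (G.dist u v - (i + 2)) (by omega)
      rw [show G.dist u v - (i + 2) + 2 = G.dist u v - i by omega] at h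
      exact h.symm
  obtain ⟨φ, hφ⟩ := exists_aut_of_paths hG hreg hp hq
  have h1 : φ u = v := by
    have := hφ 0 (by omega)
    rw [hp0] at this
    rw [this]
    simpa using hpn
  have h2 : φ v = u := by
    have := hφ (G.dist u v) le_rfl
    rw [hpn] at this
    rw [this]
    simpa using hp0
  have h3 := ncard_stabOrbit_map (Γ := (⊤ : Subgroup (G ≃g G))) (g := φ) (Subgroup.mem_top _) u v
  rw [h1, h2] at h3
  exact h3.symm

/-- every group with finite vertex stabilisers is unimodular -/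
theorem isUnimodular_of_finite {Γ : Subgroup (G ≃g G)}
    (h : ∀ v, {g : G ≃g G | g ∈ Γ ∧ g v = v}.Finite) : IsUnimodular Γ := by
  intro u v huv
  obtain ⟨g, hg, hguv⟩ := huv
  have hfin : ∀ v, Finite (stb Γ v) := by
    intro v
    have h1 := (h v).to_subtype
    refine Finite.of_injective (β := {g : G ≃g G | g ∈ Γ ∧ g v = v})
      (fun x => ⟨((x : Γ) : G ≃g G), (x : Γ).2, x.2⟩) ?_
    intro a b hab
    have h2 : (((a : Γ) : G ≃g G)) = ((b : Γ) : G ≃g G) := Subtype.mk_eq_mk.1 hab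
    exact Subtype.ext (Subtype.ext h2)
  have key : ∀ K L : Subgroup Γ, Nat.card (K ⊓ L : Subgroup Γ) * K.relIndex L = Nat.card L := by
    intro K L
    have h1 := Subgroup.relIndex_inf_mul_relIndex (⊥ : Subgroup Γ) K L
    rwa [bot_inf_eq, Subgroup.relIndex_bot_left, Subgroup.relIndex_bot_left] at h1
  have k1 := key (stb Γ v) (stb Γ u)
  have k2 := key (stb Γ u) (stb Γ v)
  rw [inf_comm (stb Γ u) (stb Γ v)] at k2
  rw [← ncard_eq_relIndex] at k1 k2
  have hcard : Nat.card (stb Γ u) = Nat.card (stb Γ v) := by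
    set γ : Γ := ⟨g, hg⟩ with hγ
    have hγu : (γ : G ≃g G) u = v := hguv
    have hγv : ((γ⁻¹ : Γ) : G ≃g G) v = u := by
      rw [← hguv]
      exact g.symm_apply_apply u
    refine Nat.card_congr ⟨fun x => ⟨γ * (x : Γ) * γ⁻¹, ?_⟩, fun x => ⟨γ⁻¹ * (x : Γ) * γ, ?_⟩,
      fun x => ?_, fun x => ?_⟩
    · show (γ : G ≃g G) (((x : Γ) : G ≃g G) (((γ⁻¹ : Γ) : G ≃g G) v)) = v
      rw [hγv, show ((x : Γ) : G ≃g G) u = u from x.2, hγu]
    · show ((γ⁻¹ : Γ) : G ≃g G) (((x : Γ) : G ≃g G) ((γ : G ≃g G) u)) = u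
      rw [hγu, show ((x : Γ) : G ≃g G) v = v from x.2, hγv]
    · apply Subtype.ext
      show γ⁻¹ * (γ * (x : Γ) * γ⁻¹) * γ = x
      group
    · apply Subtype.ext
      show γ * (γ⁻¹ * (x : Γ) * γ) * γ⁻¹ = x
      group
  have hpos : 0 < Nat.card (stb Γ v ⊓ stb Γ u : Subgroup Γ) := by
    have := hfin v
    have : Finite (stb Γ v ⊓ stb Γ u : Subgroup Γ) :=
      Finite.of_injective (Subgroup.inclusion (inf_le_left : stb Γ v ⊓ stb Γ u ≤ stb Γ v))
        (Subgroup.inclusion_injective _)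
    exact Nat.card_pos
  rw [hcard] at k1
  exact Nat.eq_of_mul_eq_mul_left hpos (k1.trans k2.symm)

end Vale.Agent.P161.H431
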